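import Vale.Agent.P105.Salem.Interfaces

/-!
P105, M1: the quartic Salem number and its conjugate on the unit circle.
-/

namespace Vale.Agent.P105.Salem

open Polynomial

noncomputable section

/-- The contracted conjugate. -/
def lamS : ℝ := (sPlus - Real.sqrt (sPlus ^ 2 - 4)) / 2

lemma sqrt13_bounds :
    (36055512754639892931 : ℝ) / 10 ^ 19 < Real.sqrt 13 ∧
      Real.sqrt 13 < (36055512754639892932 : ℝ) / 10 ^ 19 := by
  constructor
  · rw [Real.lt_sqrt (by norm_num)]; norm_num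
  · rw [Real.sqrt_lt' (by norm_num)]; norm_num

lemma sPlus_sq : sPlus ^ 2 = sPlus + 3 := by
  have h := Real.sq_sqrt (show (0 : ℝ) ≤ 13 by norm_num)
  unfold sPlus; linear_combination h / 4

lemma sMinus_sq : sMinus ^ 2 = sMinus + 3 := by
  have h := Real.sq_sqrt (show (0 : ℝ) ≤ 13 by norm_num)
  unfold sMinus; linear_combination h / 4

lemma s_add : sPlus + sMinus = 1 := by unfold sPlus sMinus; ring

lemma sPlus_bounds : (23 / 10 : ℝ) < sPlus ∧ sPlus < 24 / 10 := by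
  obtain ⟨h1, h2⟩ := sqrt13_bounds
  constructor <;> (unfold sPlus; norm_num at h1 h2 ⊢; linarith)

lemma sMinus_bounds : (-14 / 10 : ℝ) < sMinus ∧ sMinus < -13 / 10 := by
  obtain ⟨h1, h2⟩ := sqrt13_bounds
  constructor <;> (unfold sMinus; norm_num at h1 h2 ⊢; linarith)

lemma disc_bounds :
    (11413919737460898434 : ℝ) / 10 ^ 19 < Real.sqrt (sPlus ^ 2 - 4) ∧
      Real.sqrt (sPlus ^ 2 - 4) < (11413919737460898436 : ℝ) / 10 ^ 19 := by
  have h := sPlus_sq
  obtain ⟨h1, h2⟩ := sqrt13_bounds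
  constructor
  · rw [Real.lt_sqrt (by norm_num), h]; unfold sPlus; norm_num at h1 h2 ⊢; linarith
  · rw [Real.sqrt_lt' (by norm_num), h]; unfold sPlus; norm_num at h1 h2 ⊢; linarith

lemma lamS_bounds :
    (580691831 : ℝ) / 10 ^ 9 < lamS ∧ lamS < (580691833 : ℝ) / 10 ^ 9 := by
  obtain ⟨h1, h2⟩ := sqrt13_bounds
  obtain ⟨h3, h4⟩ := disc_bounds
  constructor <;> (unfold lamS; norm_num at h3 h4 ⊢; unfold sPlus at *; norm_num at h1 h2; linarith)

lemma beta_bounds : (1722 : ℝ) / 1000 < beta ∧ beta < 1723 / 1000 := by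
  obtain ⟨h1, h2⟩ := sqrt13_bounds
  obtain ⟨h3, h4⟩ := disc_bounds
  constructor <;> (unfold beta; norm_num at h3 h4 ⊢; unfold sPlus at *; norm_num at h1 h2; linarith)

lemma beta_add : beta + lamS = sPlus := by unfold beta lamS; ring

lemma beta_mul : beta * lamS = 1 := by
  have h : (0 : ℝ) ≤ sPlus ^ 2 - 4 := by nlinarith [sPlus_bounds.1]
  have hh := Real.sq_sqrt h
  unfold beta lamS
  linear_combination (-(1 : ℝ) / 4) * hh

lemma beta_inv : beta⁻¹ = lamS := inv_eq_of_mul_eq_one_right beta_mul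

lemma beta_quad : beta ^ 2 = sPlus * beta - 1 := by
  linear_combination beta * beta_add - beta_mul

lemma lamS_quad : lamS ^ 2 = sPlus * lamS - 1 := by
  linear_combination lamS * beta_add - beta_mul

lemma zeta_re : zeta.re = sMinus / 2 := by simp [zeta]

lemma zeta_im : zeta.im = Real.sqrt (4 - sMinus ^ 2) / 2 := by simp [zeta]

lemma zeta_disc : (0 : ℝ) ≤ 4 - sMinus ^ 2 := by
  nlinarith [sMinus_bounds.1, sMinus_bounds.2]

lemma norm_zeta : ‖zeta‖ = 1 := by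
  rw [Complex.norm_eq_sqrt_sq_add_sq, zeta_re, zeta_im, Real.sqrt_eq_one]
  linear_combination (Real.sq_sqrt zeta_disc) / 4

lemma zeta_quad : zeta ^ 2 = (sMinus : ℂ) * zeta - 1 := by
  have h := Real.sq_sqrt zeta_disc
  apply Complex.ext
  · simp [pow_two, zeta_re, zeta_im]; ring_nf; ring_nf at h; linarith
  · simp [pow_two, zeta_re, zeta_im]; ring

/-- Both traces follow the same recurrence over the integers. -/
lemma traces (j : ℕ) : ∃ P Q : ℤ,
    (beta ^ j + lamS ^ j = P + Q * sPlus ∧ 2 * (zeta ^ j).re = P + Q * sMinus) := by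
  suffices ∀ j : ℕ, (∃ P Q : ℤ,
      (beta ^ j + lamS ^ j = P + Q * sPlus ∧ 2 * (zeta ^ j).re = P + Q * sMinus)) ∧
      ∃ P Q : ℤ, (beta ^ (j + 1) + lamS ^ (j + 1) = P + Q * sPlus ∧
        2 * (zeta ^ (j + 1)).re = P + Q * sMinus) from (this j).1
  intro j
  induction j with
  | zero =>
    refine ⟨⟨2, 0, by norm_num, by norm_num⟩, ⟨0, 1, ?_, ?_⟩⟩
    · simpa using beta_add
    · simp [zeta_re]; ring
  | succ j ih =>
    obtain ⟨⟨P, Q, hb, hz⟩, P', Q', hb', hz'⟩ := ih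
    refine ⟨⟨P', Q', hb', hz'⟩, 3 * Q' - P, P' + Q' - Q, ?_, ?_⟩
    · push_cast
      linear_combination beta ^ j * beta_quad + lamS ^ j * lamS_quad + sPlus * hb' - hb +
        (Q' : ℝ) * sPlus_sq
    · have hr : (zeta ^ (j + 1 + 1)).re = sMinus * (zeta ^ (j + 1)).re - (zeta ^ j).re := by
        have hc : zeta ^ (j + 1 + 1) = (sMinus : ℂ) * zeta ^ (j + 1) - zeta ^ j := by
          linear_combination zeta ^ j * zeta_quad
        rw [hc]; simp
      push_cast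
      linear_combination 2 * hr + sMinus * hz' - hz + (Q' : ℝ) * sMinus_sq

lemma triple_of (A B : ℤ) :
    Triple beta zeta (A * sPlus + B) (A * sPlus + B) ((A * sMinus + B : ℝ) : ℂ) := by
  intro j
  obtain ⟨P, Q, hb, hz⟩ := traces j
  refine ⟨7 * A * Q + A * P + B * Q + 2 * B * P, ?_⟩
  rw [beta_inv, Complex.re_ofReal_mul]
  push_cast
  linear_combination (A * sPlus + B : ℝ) * hb + (A * sMinus + B : ℝ) * hz +
    (A * Q : ℝ) * sPlus_sq + (A * Q : ℝ) * sMinus_sq + (A * Q + A * P + B * Q : ℝ) * s_add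

lemma sPlus_indep (X Y : ℤ) (h : (X : ℝ) + Y * sPlus = 0) : X = 0 ∧ Y = 0 := by
  have hY : Y = 0 := by
    by_contra hY
    have hirr : Irrational (Real.sqrt 13) := by
      simpa using Nat.Prime.irrational_sqrt (p := 13) (by norm_num)
    refine hirr ⟨((-2 * X - Y : ℤ) : ℚ) / (Y : ℚ), ?_⟩
    have hYR : (Y : ℝ) ≠ 0 := by exact_mod_cast hY
    push_cast
    rw [div_eq_iff hYR]
    unfold sPlus at h
    linarith
  subst hY
  exact ⟨by simpa using h, rfl⟩

lemma sMinus_indep (X Y : ℤ) (h : (X : ℝ) + Y * sMinus = 0) : X = 0 ∧ Y = 0 := by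
  have hs : sMinus = 1 - sPlus := by linarith [s_add]
  obtain ⟨h1, h2⟩ := sPlus_indep (X + Y) (-Y) (by push_cast; rw [hs] at h; linarith)
  omega

/-- The number is of degree four. -/
lemma cubic_free (a b c d : ℤ) (h : (a : ℝ) + b * beta + c * beta ^ 2 + d * beta ^ 3 = 0) :
    a = 0 ∧ b = 0 ∧ c = 0 ∧ d = 0 := by
  have hlin : ((a - c : ℤ) : ℝ) + ((-d : ℤ) : ℝ) * sPlus +
      (((b + 2 * d : ℤ) : ℝ) + ((c + d : ℤ) : ℝ) * sPlus) * beta = 0 := by
    push_cast
    linear_combination h - ((c : ℝ) + d * sPlus + d * beta) * beta_quad -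
      ((d : ℝ) * beta) * sPlus_sq
  generalize hu1 : a - c = u1 at hlin
  generalize hu2 : -d = u2 at hlin
  generalize hv1 : b + 2 * d = v1 at hlin
  generalize hv2 : c + d = v2 at hlin
  have key : ((u1 : ℝ) + u2 * sPlus) ^ 2 + sPlus * ((u1 : ℝ) + u2 * sPlus) * (v1 + v2 * sPlus) +
      ((v1 : ℝ) + v2 * sPlus) ^ 2 = 0 := by
    linear_combination ((v1 : ℝ) + v2 * sPlus) ^ 2 * beta_quad +
      ((u1 : ℝ) + u2 * sPlus - ((v1 : ℝ) + v2 * sPlus) * beta +
        sPlus * ((v1 : ℝ) + v2 * sPlus)) * hlin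
  obtain ⟨hX, hY⟩ := sPlus_indep
    (u1 ^ 2 + 3 * u2 ^ 2 + v1 ^ 2 + 3 * v2 ^ 2 + 3 * (u1 * v2 + u2 * v1 + u2 * v2))
    (u2 ^ 2 + 2 * u1 * u2 + v2 ^ 2 + 2 * v1 * v2 + u1 * v1 + u1 * v2 + u2 * v1 + 4 * u2 * v2)
    (by
      push_cast
      linear_combination key - ((u2 : ℝ) ^ 2 + v2 ^ 2 + u1 * v2 + u2 * v1 + u2 * v2 +
        u2 * v2 * sPlus) * sPlus_sq)
  have hXR := congrArg (fun n : ℤ => (n : ℝ)) hX
  have hYR := congrArg (fun n : ℤ => (n : ℝ)) hY
  push_cast at hXR hYR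
  set u : ℝ := (u1 : ℝ) + u2 * sMinus with hu
  set v : ℝ := (v1 : ℝ) + v2 * sMinus with hv
  have hconj : u ^ 2 + sMinus * u * v + v ^ 2 = 0 := by
    rw [hu, hv]
    linear_combination hXR + sMinus * hYR + ((u2 : ℝ) ^ 2 + v2 ^ 2 + u1 * v2 + u2 * v1 +
        u2 * v2 + u2 * v2 * sMinus) * sMinus_sq
  have hpos : (0 : ℝ) < 4 - sMinus ^ 2 := by nlinarith [sMinus_bounds.1, sMinus_bounds.2]
  have hv0 : v = 0 := by
    have : (4 - sMinus ^ 2) * v ^ 2 ≤ 0 := by
      nlinarith [sq_nonneg (2 * u + sMinus * v)]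
    have hvv : v ^ 2 ≤ 0 := nonpos_of_mul_nonpos_right this hpos
    exact pow_eq_zero_iff (two_ne_zero) |>.1 (le_antisymm hvv (sq_nonneg v))
  have hu0 : u = 0 := by
    rw [hv0] at hconj
    nlinarith
  obtain ⟨h1, h2⟩ := sMinus_indep u1 u2 hu0
  obtain ⟨h3, h4⟩ := sMinus_indep v1 v2 hv0
  omega

lemma beta_poly : beta ^ 4 - beta ^ 3 - beta ^ 2 - beta + 1 = 0 := by
  linear_combination (beta ^ 2 - (1 - sPlus) * beta + 1) * beta_quad + beta ^ 2 * sPlus_sq

lemma zeta_poly : zeta ^ 4 - zeta ^ 3 - zeta ^ 2 - zeta + 1 = 0 := by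
  have h : (sMinus : ℂ) ^ 2 = (sMinus : ℂ) + 3 := by exact_mod_cast sMinus_sq
  linear_combination (zeta ^ 2 - (1 - (sMinus : ℂ)) * zeta + 1) * zeta_quad + zeta ^ 2 * h

lemma conj_root (p : Polynomial ℤ) (hp : aeval beta p = 0) : aeval zeta p = 0 := by
  set f : Polynomial ℤ := X ^ 4 - X ^ 3 - X ^ 2 - X + 1 with hf
  have hmon : f.Monic := by rw [hf]; monicity!
  have hdeg : f.natDegree = 4 := by rw [hf]; compute_degree!
  have hfb : aeval beta f = 0 := by simpa [hf] using beta_poly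
  have hfz : aeval zeta f = 0 := by simpa [hf] using zeta_poly
  have hsum := modByMonic_add_div p f
  have hrdeg : (p %ₘ f).natDegree < 4 := by
    have hf1 : f ≠ 1 := by
      intro h1; rw [h1] at hdeg; simp at hdeg
    simpa [hdeg] using natDegree_modByMonic_lt p hmon hf1
  have hrb : aeval beta (p %ₘ f) = 0 := by
    have h := congrArg (aeval beta) hsum
    simpa [hfb, hp] using h
  rw [aeval_eq_sum_range' hrdeg] at hrb
  simp [Finset.sum_range_succ] at hrb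
  obtain ⟨h0, h1, h2, h3⟩ := cubic_free ((p %ₘ f).coeff 0) ((p %ₘ f).coeff 1)
    ((p %ₘ f).coeff 2) ((p %ₘ f).coeff 3) (by linarith)
  have hrz : aeval zeta (p %ₘ f) = 0 := by
    rw [aeval_eq_sum_range' hrdeg]
    simp [Finset.sum_range_succ, h0, h1, h2, h3]
  rw [← hsum]
  simp [hrz, hfz]

theorem algebraStmt : AlgebraStmt := by
  obtain ⟨h1, h2⟩ := beta_bounds
  refine ⟨by linarith, by linarith, norm_zeta, triple_of, beta_poly, fun p hp => ?_⟩
  refine ⟨zeta, fun h => ?_, norm_zeta, conj_root p hp⟩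
  have h' := congrArg (fun w : ℂ => ‖w‖) h
  simp only [norm_zeta, Complex.norm_real, Real.norm_eq_abs] at h'
  rw [abs_of_pos (by linarith)] at h'
  linarith

end

end Vale.Agent.P105.Salem
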