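import Vale.Agent.P105.Salem.Algebra

/-!
P105, M2: the first member of the tower, frequency `42837 s + 55807` on the window `[-28, 28]`.
-/

namespace Vale.Agent.P105.Salem

noncomputable section

/-- The base frequency. -/
def theta0 : ℝ := 42837 * sPlus + 55807

/-- Its neutral part. -/
def neut0 : ℝ := 42837 * sMinus + 55807

lemma theta0_bounds : (154450999993525 : ℝ) / 10 ^ 9 < theta0 ∧ theta0 < (154450999993526 : ℝ) / 10 ^ 9 := by
  obtain ⟨h1, h2⟩ := sqrt13_bounds
  constructor <;> (unfold theta0 sPlus; norm_num at h1 h2 ⊢; linarith)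

lemma neut0_small : |neut0| ≤ 7 / 1000000 := by
  obtain ⟨h1, h2⟩ := sqrt13_bounds
  rw [abs_le]
  constructor <;> (unfold neut0 sMinus; norm_num at h1 h2 ⊢; linarith)

lemma cos_lower {t : ℝ} (h : |t| ≤ 47 / 100) : 1 / 20 ≤ |Real.cos (Real.pi * t)| := by
  have h0 : 0 ≤ Real.pi * (1 / 2 - |t|) := by
    have := Real.pi_pos
    nlinarith
  have h1 : Real.pi * (1 / 2 - |t|) ≤ Real.pi / 2 := by
    have := Real.pi_pos
    nlinarith [abs_nonneg t]
  have h2 := Real.mul_le_sin h0 h1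
  have h3 : Real.cos (Real.pi * t) = Real.sin (Real.pi * (1 / 2 - |t|)) := by
    rw [show Real.pi * (1 / 2 - |t|) = Real.pi / 2 - Real.pi * |t| by ring, Real.sin_pi_div_two_sub]
    rcases abs_choice t with ht | ht <;> rw [ht]
    rw [mul_neg, Real.cos_neg]
  have h4 : 2 / Real.pi * (Real.pi * (1 / 2 - |t|)) = 1 - 2 * |t| := by
    field_simp
  rw [h3]
  exact le_trans (by linarith) (le_abs_self _)

lemma factor_lower {x : ℝ} {n : ℤ} (h : |x - n| ≤ 47 / 100) : 1 / 20 ≤ |Real.cos (Real.pi * x)| := by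
  have e : Real.cos (Real.pi * x) = (-1) ^ n * Real.cos (Real.pi * (x - n)) := by
    rw [← Real.cos_add_int_mul_pi (Real.pi * (x - n)) n]
    congr 1
    ring
  rw [e, abs_mul]
  simpa using cos_lower h

lemma back_near (n : ℤ) (k : ℕ)
    (h1 : (n : ℝ) - 4645 / 10000 ≤
      (154450999993525 : ℝ) / 10 ^ 9 * ((580691831 : ℝ) / 10 ^ 9) ^ k)
    (h2 : (154450999993526 : ℝ) / 10 ^ 9 * ((580691833 : ℝ) / 10 ^ 9) ^ k ≤
      (n : ℝ) + 4645 / 10000) :
    |theta0 * lamS ^ k - n| ≤ 4645 / 10000 := by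
  obtain ⟨a1, a2⟩ := theta0_bounds
  obtain ⟨b1, b2⟩ := lamS_bounds
  have hb : (0 : ℝ) ≤ lamS := le_trans (by norm_num) b1.le
  have c1 : ((580691831 : ℝ) / 10 ^ 9) ^ k ≤ lamS ^ k := pow_le_pow_left₀ (by norm_num) b1.le k
  have c2 : lamS ^ k ≤ ((580691833 : ℝ) / 10 ^ 9) ^ k := pow_le_pow_left₀ hb b2.le k
  have d1 := mul_le_mul a1.le c1 (by positivity) (le_trans (by norm_num) a1.le)
  have d2 := mul_le_mul a2.le c2 (pow_nonneg hb k) (by norm_num)
  rw [abs_le]; constructor <;> linarith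

/-- The nearest integer to `θ λ ^ k`. -/
def nearInt (k : ℕ) : ℤ :=
  [154451, 89688, 52081, 30243, 17562, 10198, 5922, 3439, 1997, 1160, 673, 391, 227, 132, 77,
    44, 26, 15, 9, 5, 3, 2, 1, 1, 0, 0, 0, 0, 0].getD k 0

lemma back_all (k : ℕ) (hk : k ≤ 28) : |theta0 * lamS ^ k - nearInt k| ≤ 4645 / 10000 := by
  interval_cases k <;> apply back_near <;> norm_num [nearInt]

lemma neut0_triple : Triple beta zeta theta0 theta0 (neut0 : ℂ) := by
  simpa [theta0, neut0] using triple_of 42837 55807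

lemma forward_all (k : ℕ) (hk : k ≤ 28) :
    ∃ n : ℤ, |theta0 * beta ^ k - n| ≤ 47 / 100 := by
  obtain ⟨m, hm⟩ := neut0_triple k
  rw [beta_inv, Complex.re_ofReal_mul] at hm
  refine ⟨m - nearInt k, ?_⟩
  have hb := abs_le.1 (back_all k hk)
  have hre : |(zeta ^ k).re| ≤ 1 := by
    calc |(zeta ^ k).re| ≤ ‖zeta ^ k‖ := Complex.abs_re_le_norm _
      _ = 1 := by rw [norm_pow, norm_zeta, one_pow]
  have hp : |neut0 * (zeta ^ k).re| ≤ 7 / 1000000 := by
    rw [abs_mul]
    calc |neut0| * |(zeta ^ k).re| ≤ 7 / 1000000 * 1 :=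
          mul_le_mul neut0_small hre (abs_nonneg _) (by norm_num)
      _ = 7 / 1000000 := mul_one _
  obtain ⟨p1, p2⟩ := abs_le.1 hp
  push_cast
  rw [abs_le]; constructor <;> linarith

lemma window_all (j : ℤ) (hj : j ∈ Finset.Icc (-28 : ℤ) 28) : 1 / 20 ≤ factor beta theta0 j := by
  rw [Finset.mem_Icc] at hj
  obtain ⟨k, hk | hk⟩ := j.eq_nat_or_neg
  · subst hk
    obtain ⟨n, hn⟩ := forward_all k (by omega)
    unfold factor
    rw [zpow_natCast]
    exact factor_lower hn
  · subst hk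
    unfold factor
    rw [zpow_neg, zpow_natCast, ← inv_pow, beta_inv]
    refine factor_lower (n := nearInt k) (le_trans (back_all k (by omega)) ?_)
    norm_num

theorem baseStmt (h : AlgebraStmt) : BaseStmt := by
  obtain ⟨-, -, -, htr, -, -⟩ := h
  obtain ⟨b1, b2⟩ := beta_bounds
  obtain ⟨t1, t2⟩ := theta0_bounds
  have hpos : (0 : ℝ) < theta0 := lt_trans (by norm_num) t1
  have hbig : (20 : ℝ) * |theta0| ≤ beta ^ 28 := by
    rw [abs_of_pos hpos]
    calc 20 * theta0 ≤ ((1722 : ℝ) / 1000) ^ 28 := by norm_num at t2 ⊢; linarith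
      _ ≤ beta ^ 28 := pow_le_pow_left₀ (by norm_num) b1.le 28
  refine ⟨theta0, theta0, (neut0 : ℂ), 28, 28, 7 / 1000000, 1 / 20,
    { triple := neut0_triple
      one_le := ?_
      left_le := hbig
      right_le := hbig
      neutral_le := ?_
      e_pos := by norm_num
      m_pos := by norm_num
      window := ?_
      long := by norm_num
      e_small := by norm_num
      neutral_small := by norm_num
      tail_small := ?_
      length_le := by norm_num }⟩
  · rw [abs_of_pos hpos]; norm_num at t1; linarith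
  · rw [Complex.norm_real]; exact neut0_small
  · intro j hj; exact window_all j hj
  · calc (100 : ℝ) ≤ 1 / 20 * ((17 : ℝ) / 10) ^ 57 := by norm_num
      _ ≤ 1 / 20 * beta ^ (28 + 28 + 1) := by
        gcongr
        linarith

end

end Vale.Agent.P105.Salem
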