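import Mathlib

/-!
P105, the Bernoulli convolution of a Salem number of degree four: the common objects.
-/

namespace Vale.Agent.P105.Salem

open MeasureTheory Finset

noncomputable section

/-- The larger root of `x ^ 2 = x + 3`. -/
def sPlus : ℝ := (1 + Real.sqrt 13) / 2

/-- The smaller root of `x ^ 2 = x + 3`. -/
def sMinus : ℝ := (1 - Real.sqrt 13) / 2

/-- The Salem number: the root larger than one of `x ^ 4 - x ^ 3 - x ^ 2 - x + 1`. -/
def beta : ℝ := (sPlus + Real.sqrt (sPlus ^ 2 - 4)) / 2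

/-- Its conjugate on the unit circle. -/
def zeta : ℂ := ((sMinus / 2 : ℝ) : ℂ) + ((Real.sqrt (4 - sMinus ^ 2) / 2 : ℝ) : ℂ) * Complex.I

/-- The fair coin. -/
def coin : Measure Bool := (2⁻¹ : ENNReal) • Measure.dirac true + (2⁻¹ : ENNReal) • Measure.dirac false

/-- The Bernoulli convolution of ratio `lam`. -/
def nu (lam : ℝ) : Measure ℝ :=
  (Measure.infinitePi fun _ : ℕ => coin).map fun b => ∑' n, (if b n then (1 : ℝ) else -1) * lam ^ n

/-- A frequency with its contracted and its neutral parts: the three add up to an integer along the orbit. -/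
def Triple (β : ℝ) (ζ : ℂ) (θ c : ℝ) (z : ℂ) : Prop :=
  ∀ j : ℕ, ∃ n : ℤ, θ * β ^ j + c * (β⁻¹) ^ j + 2 * (z * ζ ^ j).re = n

/-- A factor of the Fourier transform along the orbit of `θ`. -/
def factor (β θ : ℝ) (j : ℤ) : ℝ := |Real.cos (Real.pi * (θ * β ^ j))|

/-- The product of the factors in the window. -/
def winProd (β θ : ℝ) (V U : ℕ) : ℝ := ∏ j ∈ Icc (-(V : ℤ)) (U : ℤ), factor β θ j

/-- Outside the window `[-V, U]` the frequency is nearly an integer. -/
structure Good (β : ℝ) (ζ : ℂ) (θ c : ℝ) (z : ℂ) (V U : ℕ) (e : ℝ) : Prop where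
  triple : Triple β ζ θ c z
  one_le : 1 ≤ |θ|
  left_le : 20 * |θ| ≤ β ^ V
  right_le : 20 * |c| ≤ β ^ U
  neutral_le : ‖z‖ ≤ e
  e_pos : 0 < e

/-- The invariant of the tower. -/
structure Steady (β : ℝ) (ζ : ℂ) (θ c : ℝ) (z : ℂ) (V U : ℕ) (e m : ℝ) : Prop
    extends Good β ζ θ c z V U e where
  m_pos : 0 < m
  window : ∀ j ∈ Icc (-(V : ℤ)) (U : ℤ), m ≤ factor β θ j
  long : 42 ≤ V + U + 1
  e_small : e ≤ 1 / 100000
  neutral_small : 100 * ((V + U + 1 : ℕ) : ℝ) * e ≤ m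
  tail_small : 100 ≤ m * β ^ (V + U + 1)
  length_le : ((V + U + 1 : ℕ) : ℝ) ^ 4 * e ^ 3 ≤ 1

end

end Vale.Agent.P105.Salem
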