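import Vale.Agent.P105.Salem.Fourier

/-!
P105, M5: a lacunary average of cosines separates the Bernoulli convolution from Lebesgue measure.
-/

namespace Vale.Agent.P105.Salem

open MeasureTheory Finset Filter Topology

noncomputable section

theorem abs_sin_pi_le (x : ℝ) (n : ℤ) : |Real.sin (Real.pi * x)| ≤ Real.pi * |x - n| := by
  have h : |Real.sin (Real.pi * x)| = |Real.sin (Real.pi * x - n * Real.pi)| := by
    rw [Real.sin_sub_int_mul_pi, abs_mul, abs_zpow, abs_neg, abs_one, one_zpow, one_mul]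
  rw [h]
  refine Real.abs_sin_le_abs.trans (le_of_eq ?_)
  rw [show Real.pi * x - n * Real.pi = Real.pi * (x - n) by ring, abs_mul, abs_of_pos Real.pi_pos]

theorem Good.abs_theta_lam {β : ℝ} {ζ : ℂ} {θ c : ℝ} {z : ℂ} {V U : ℕ} {e : ℝ} (hβ : 0 < β)
    (h : Good β ζ θ c z V U e) : |θ| * β⁻¹ ^ V ≤ 1 / 20 := by
  have hp : 0 < β ^ V := pow_pos hβ V
  rw [inv_pow, ← div_eq_mul_inv, div_le_iff₀ hp]
  linarith [h.left_le]

theorem Good.abs_c_lam {β : ℝ} {ζ : ℂ} {θ c : ℝ} {z : ℂ} {V U : ℕ} {e : ℝ} (hβ : 0 < β)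
    (h : Good β ζ θ c z V U e) : |c| * β⁻¹ ^ U ≤ 1 / 20 := by
  have hp : 0 < β ^ U := pow_pos hβ U
  rw [inv_pow, ← div_eq_mul_inv, div_le_iff₀ hp]
  linarith [h.right_le]

/-- Beyond the window on the right. -/
theorem Good.sin_high {β : ℝ} {ζ : ℂ} {θ c : ℝ} {z : ℂ} {V U : ℕ} {e : ℝ} (hβ : 0 < β)
    (hζ : ‖ζ‖ = 1) (h : Good β ζ θ c z V U e) {n : ℕ} (hn : U ≤ n) :
    |Real.sin (Real.pi * (θ * β ^ n))| ≤ Real.pi * (2 * e) + Real.pi / 20 * β⁻¹ ^ (n - U) := by
  obtain ⟨N, hN⟩ := h.triple n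
  refine (abs_sin_pi_le _ N).trans ?_
  have hre : |(z * ζ ^ n).re| ≤ e := by
    refine (Complex.abs_re_le_norm _).trans ?_
    rw [norm_mul, norm_pow, hζ, one_pow, mul_one]
    exact h.neutral_le
  have hpow : 0 ≤ β⁻¹ ^ (n - U) := pow_nonneg (inv_nonneg.2 hβ.le) _
  have hc : |c * β⁻¹ ^ n| ≤ β⁻¹ ^ (n - U) / 20 := by
    rw [abs_mul, abs_of_nonneg (pow_nonneg (inv_nonneg.2 hβ.le) n)]
    have hsplit : β⁻¹ ^ n = β⁻¹ ^ U * β⁻¹ ^ (n - U) := by
      rw [← pow_add, Nat.add_sub_cancel' hn]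
    rw [hsplit, ← mul_assoc]
    have := mul_le_mul_of_nonneg_right (h.abs_c_lam hβ) hpow
    linarith
  have hd : |θ * β ^ n - N| ≤ β⁻¹ ^ (n - U) / 20 + 2 * e := by
    have he : θ * β ^ n - N = -(c * β⁻¹ ^ n) + -(2 * (z * ζ ^ n).re) := by linarith
    rw [he]
    refine (abs_add_le _ _).trans ?_
    rw [abs_neg, abs_neg, abs_mul 2, abs_two]
    linarith
  calc Real.pi * |θ * β ^ n - N| ≤ Real.pi * (β⁻¹ ^ (n - U) / 20 + 2 * e) :=
        mul_le_mul_of_nonneg_left hd Real.pi_pos.le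
    _ = _ := by ring

/-- Beyond the window on the left. -/
theorem Good.sin_low {β : ℝ} {ζ : ℂ} {θ c : ℝ} {z : ℂ} {V U : ℕ} {e : ℝ} (hβ : 0 < β)
    (h : Good β ζ θ c z V U e) {k i : ℕ} (hi : k + V ≤ i) :
    |Real.sin (Real.pi * (θ * β ^ k) * β⁻¹ ^ i)| ≤ Real.pi / 20 * β⁻¹ ^ (i - k - V) := by
  refine Real.abs_sin_le_abs.trans ?_
  have hsplit : β⁻¹ ^ i = β⁻¹ ^ k * (β⁻¹ ^ V * β⁻¹ ^ (i - k - V)) := by
    rw [← pow_add, ← pow_add]; congr 1; omega
  have hone : β ^ k * β⁻¹ ^ k = 1 := by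
    rw [← mul_pow, mul_inv_cancel₀ hβ.ne', one_pow]
  rw [hsplit, show Real.pi * (θ * β ^ k) * (β⁻¹ ^ k * (β⁻¹ ^ V * β⁻¹ ^ (i - k - V)))
    = Real.pi * ((β ^ k * β⁻¹ ^ k) * (θ * β⁻¹ ^ V) * β⁻¹ ^ (i - k - V)) by ring, hone, one_mul,
    abs_mul, abs_mul, abs_mul, abs_of_pos Real.pi_pos,
    abs_of_nonneg (pow_nonneg (inv_nonneg.2 hβ.le) V),
    abs_of_nonneg (pow_nonneg (inv_nonneg.2 hβ.le) (i - k - V))]
  rw [show Real.pi / 20 * β⁻¹ ^ (i - k - V) = Real.pi * (1 / 20 * β⁻¹ ^ (i - k - V)) by ring]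
  exact mul_le_mul_of_nonneg_left
    (mul_le_mul_of_nonneg_right (h.abs_theta_lam hβ) (pow_nonneg (inv_nonneg.2 hβ.le) _))
    Real.pi_pos.le

theorem orbit_term {β : ℝ} (hβ : 0 < β) (θ : ℝ) {n i : ℕ} (hi : i ≤ n) :
    Real.pi * (θ * β ^ n) * β⁻¹ ^ i = Real.pi * (θ * β ^ (n - i)) := by
  have hone : β ^ i * β⁻¹ ^ i = 1 := by
    rw [← mul_pow, mul_inv_cancel₀ hβ.ne', one_pow]
  have hsplit : β ^ n = β ^ (n - i) * β ^ i := by
    rw [← pow_add, Nat.sub_add_cancel hi]
  rw [hsplit]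
  linear_combination (Real.pi * θ * β ^ (n - i)) * hone

theorem winProd_eq (β θ : ℝ) (hβ : 0 < β) (V U k : ℕ) (hk : U ≤ k) :
    winProd β θ V U
      = ∏ i ∈ Ico (k - U) (k + V + 1), |Real.cos (Real.pi * (θ * β ^ k) * β⁻¹ ^ i)| := by
  unfold winProd
  refine (Finset.prod_nbij' (fun i : ℕ => (k : ℤ) - i) (fun j : ℤ => ((k : ℤ) - j).toNat)
    ?_ ?_ ?_ ?_ ?_).symm
  · intro i hi
    simp only [Finset.mem_Ico] at hi
    simp only [Finset.mem_Icc]
    omega
  · intro j hj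
    simp only [Finset.mem_Icc] at hj
    simp only [Finset.mem_Ico]
    omega
  · intro i hi
    omega
  · intro j hj
    simp only [Finset.mem_Icc] at hj
    omega
  · intro i hi
    rw [factor, zpow_sub₀ hβ.ne', zpow_natCast, zpow_natCast, inv_pow, div_eq_mul_inv]
    congr 2
    ring

section Bounds

variable {β : ℝ} {ζ : ℂ} {θ c : ℝ} {z : ℂ} {V U : ℕ} {e : ℝ}

theorem lam_lt (hβ : 17 / 10 < β) : β⁻¹ ≤ 10 / 17 := by
  rw [inv_le_comm₀ (by linarith) (by norm_num)]
  linarith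

theorem geom_le (hβ : 17 / 10 < β) : (1 - β⁻¹)⁻¹ ≤ 17 / 7 := by
  have := lam_lt hβ
  rw [inv_le_comm₀ (by linarith) (by norm_num)]
  linarith

theorem abs_trans_ge (hβ : 17 / 10 < β) (hζ : ‖ζ‖ = 1) (h : Good β ζ θ c z V U e) {a : ℝ}
    (ha : 0 ≤ a) (haW : a ≤ winProd β θ V U) {k : ℕ} (hk : U ≤ k)
    (hke : 2 * Real.pi * e * k ≤ 1 / 20) :
    a / 2 ≤ |trans β⁻¹ (Real.pi * (θ * β ^ k))| := by
  have hβ0 : 0 < β := by linarith
  have hl := lam_lt hβ
  have hl0 : 0 ≤ β⁻¹ := inv_nonneg.2 hβ0.le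
  have hl1 : β⁻¹ < 1 := by linarith
  refine ge_of_tendsto (tendsto_fprod β⁻¹ _ hl0 hl1).abs ?_
  filter_upwards [eventually_ge_atTop (k + V + 1)] with N hN
  set x := Real.pi * (θ * β ^ k) with hx
  rw [fprod, Finset.abs_prod,
    ← Finset.prod_range_mul_prod_Ico _ (show k - U ≤ N by omega),
    ← Finset.prod_Ico_consecutive _ (show k - U ≤ k + V + 1 by omega) hN,
    ← winProd_eq β θ hβ0 V U k hk]
  set S1 := ∑ i ∈ range (k - U), |Real.sin (x * β⁻¹ ^ i)| with hS1
  set S3 := ∑ i ∈ Ico (k + V + 1) N, |Real.sin (x * β⁻¹ ^ i)| with hS3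
  have hC : 0 ≤ Real.pi / 20 * β⁻¹ := mul_nonneg (by positivity) hl0
  have hg : β⁻¹ * (1 - β⁻¹)⁻¹ ≤ 10 / 7 := by
    have := mul_le_mul hl (geom_le hβ) (inv_nonneg.2 (by linarith)) (by norm_num)
    linarith
  have hgp : Real.pi / 20 * β⁻¹ * (1 - β⁻¹)⁻¹ ≤ 9 / 40 := by
    rw [mul_assoc]
    have := mul_le_mul (show Real.pi / 20 ≤ 63 / 400 by linarith [Real.pi_lt_d2]) hg
      (mul_nonneg hl0 (inv_nonneg.2 (by linarith))) (by norm_num)
    linarith
  have b1 : S1 ≤ 11 / 40 := by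
    have := sum_lo_le β⁻¹ (Real.pi * (2 * e)) (Real.pi / 20 * β⁻¹) hl0 hl1 hC
      (fun i => |Real.sin (x * β⁻¹ ^ i)|) (k - U) (fun i hi => by
        rw [hx, orbit_term hβ0 θ (show i ≤ k by omega)]
        refine (h.sin_high hβ0 hζ (show U ≤ k - i by omega)).trans ?_
        rw [show k - i - U = (k - U - 1 - i) + 1 by omega, pow_succ']
        exact le_of_eq (by ring))
    have hcast : ((k - U : ℕ) : ℝ) ≤ k := by exact_mod_cast Nat.sub_le k U
    have he := h.e_pos
    have hkb : ((k - U : ℕ) : ℝ) * (Real.pi * (2 * e)) ≤ 1 / 20 :=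
      (mul_le_mul_of_nonneg_right hcast (by positivity)).trans (le_of_eq_of_le (by ring) hke)
    rw [hS1]
    linarith
  have b3 : S3 ≤ 9 / 40 := by
    have := sum_hi_le β⁻¹ (Real.pi / 20 * β⁻¹) hl0 hl1 hC
      (fun i => |Real.sin (x * β⁻¹ ^ i)|) (k + V + 1) N (fun i hi => by
        rw [hx]
        refine (h.sin_low hβ0 (show k + V ≤ i by omega)).trans ?_
        rw [show i - k - V = (i - (k + V + 1)) + 1 by omega, pow_succ']
        exact le_of_eq (by ring))
    rw [hS3]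
    linarith
  have p1 := one_sub_sum_le_prod (range (k - U)) (fun i => x * β⁻¹ ^ i)
  have p3 := one_sub_sum_le_prod (Ico (k + V + 1) N) (fun i => x * β⁻¹ ^ i)
  rw [← hS1] at p1
  rw [← hS3] at p3
  have hS10 : 0 ≤ S1 := Finset.sum_nonneg fun i _ => abs_nonneg _
  have hS30 : 0 ≤ S3 := Finset.sum_nonneg fun i _ => abs_nonneg _
  set P1 := ∏ i ∈ range (k - U), |Real.cos (x * β⁻¹ ^ i)|
  set P3 := ∏ i ∈ Ico (k + V + 1) N, |Real.cos (x * β⁻¹ ^ i)|
  have hP : 1 / 2 ≤ P1 * P3 := by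
    have := mul_le_mul p1 p3 (by linarith) (Finset.prod_nonneg fun i _ => abs_nonneg _)
    nlinarith [mul_nonneg hS10 hS30]
  nlinarith [mul_le_mul haW hP (by norm_num) (ha.trans haW)]

theorem cov_le (hβ : 17 / 10 < β) (hζ : ‖ζ‖ = 1) (h : Good β ζ θ c z V U e) {k D g : ℕ}
    (hD : V + U + 2 * g ≤ D) :
    |(trans β⁻¹ (Real.pi * (θ * β ^ k) + Real.pi * (θ * β ^ (k + D)))
        + trans β⁻¹ (Real.pi * (θ * β ^ k) - Real.pi * (θ * β ^ (k + D)))) / 2
      - trans β⁻¹ (Real.pi * (θ * β ^ k)) * trans β⁻¹ (Real.pi * (θ * β ^ (k + D)))|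
      ≤ 2 * Real.pi * e * ((k + V + g : ℕ) : ℝ) + β⁻¹ ^ g := by
  have hβ0 : 0 < β := by linarith
  have hl := lam_lt hβ
  have hl0 : 0 ≤ β⁻¹ := inv_nonneg.2 hβ0.le
  have hl1 : β⁻¹ < 1 := by linarith
  set x := Real.pi * (θ * β ^ k) with hx
  set y := Real.pi * (θ * β ^ (k + D)) with hy
  have ht := fun t => tendsto_fprod β⁻¹ t hl0 hl1
  refine le_of_tendsto ((((ht (x + y)).add (ht (x - y))).div_const 2).sub ((ht x).mul (ht y))).abs ?_
  filter_upwards [eventually_ge_atTop (k + V + g)] with N hN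
  have hs : ∑ i ∈ range N, |Real.sin (x * β⁻¹ ^ i)| * |Real.sin (y * β⁻¹ ^ i)|
      ≤ 2 * Real.pi * e * ((k + V + g : ℕ) : ℝ) + β⁻¹ ^ g := by
    rw [← Finset.sum_range_add_sum_Ico _ hN]
    have hC : 0 ≤ Real.pi / 20 * β⁻¹ ^ g := mul_nonneg (by positivity) (pow_nonneg hl0 g)
    have h1 := sum_lo_le β⁻¹ (Real.pi * (2 * e)) (Real.pi / 20 * β⁻¹ ^ g) hl0 hl1 hC
      (fun i => |Real.sin (x * β⁻¹ ^ i)| * |Real.sin (y * β⁻¹ ^ i)|) (k + V + g) (fun i hi => by
        refine (mul_le_of_le_one_left (abs_nonneg _) (Real.abs_sin_le_one _)).trans ?_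
        rw [hy, orbit_term hβ0 θ (show i ≤ k + D by omega)]
        refine (h.sin_high hβ0 hζ (show U ≤ k + D - i by omega)).trans ?_
        rw [mul_assoc, ← pow_add]
        exact add_le_add le_rfl (mul_le_mul_of_nonneg_left
          (pow_le_pow_of_le_one hl0 hl1.le (by omega)) (by positivity)))
    have h2 := sum_hi_le β⁻¹ (Real.pi / 20 * β⁻¹ ^ g) hl0 hl1 hC
      (fun i => |Real.sin (x * β⁻¹ ^ i)| * |Real.sin (y * β⁻¹ ^ i)|) (k + V + g) N (fun i hi => by
        refine (mul_le_of_le_one_right (abs_nonneg _) (Real.abs_sin_le_one _)).trans ?_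
        rw [hx]
        refine (h.sin_low hβ0 (show k + V ≤ i by omega)).trans ?_
        rw [show i - k - V = g + (i - (k + V + g)) by omega, pow_add]
        exact le_of_eq (by ring))
    have h3 : Real.pi / 20 * (1 - β⁻¹)⁻¹ * 2 ≤ 1 := by
      have := mul_le_mul (show Real.pi / 20 ≤ 63 / 400 by linarith [Real.pi_lt_d2]) (geom_le hβ)
        (inv_nonneg.2 (by linarith)) (by norm_num)
      linarith
    have h4 := mul_le_mul_of_nonneg_left h3 (pow_nonneg hl0 g)
    linarith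
  refine le_trans ?_ hs
  unfold fprod
  simp_rw [add_mul, sub_mul]
  have e1 := abs_prod_cos_add_sub (range N) (fun i => x * β⁻¹ ^ i) (fun i => y * β⁻¹ ^ i)
  have e2 := abs_prod_cos_add_sub (range N) (fun i => x * β⁻¹ ^ i) (fun i => -(y * β⁻¹ ^ i))
  simp only [Real.sin_neg, abs_neg, Real.cos_neg, ← sub_eq_add_neg] at e2
  rw [abs_le] at e1 e2 ⊢
  constructor <;> linarith [e1.1, e1.2, e2.1, e2.2]

end Bounds

theorem trans_neg (lam t : ℝ) : trans lam (-t) = trans lam t := by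
  simp [trans, neg_mul, Real.cos_neg]

theorem integrable_of_abs_le {g : (ℕ → Bool) → ℝ} (hg : Continuous g) (C : ℝ)
    (h : ∀ b, |g b| ≤ C) : Integrable g coins :=
  Integrable.of_bound hg.aestronglyMeasurable C (Eventually.of_forall fun b => by
    rw [Real.norm_eq_abs]; exact h b)

theorem integral_cos_mul_cos (lam : ℝ) (h0 : 0 ≤ lam) (h1 : lam < 1) (x y : ℝ) :
    ∫ b, Real.cos (x * series lam b) * Real.cos (y * series lam b) ∂coins
      = (trans lam (x + y) + trans lam (x - y)) / 2 := by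
  have hc := continuous_series lam h0 h1
  have hi : ∀ t, Integrable (fun b => Real.cos (t * series lam b)) coins := fun t =>
    integrable_of_abs_le (by fun_prop) 1 fun b => Real.abs_cos_le_one _
  rw [trans, trans, ← integral_add (hi _) (hi _), ← integral_div]
  refine integral_congr_ae (Eventually.of_forall fun b => ?_)
  simp only [add_mul, sub_mul, Real.cos_add, Real.cos_sub]
  ring

theorem abs_integral_cos_le (u : ℝ) (hu : u ≠ 0) :
    |∫ x in (-3 : ℝ)..3, Real.cos (u * x)| ≤ 2 / |u| := by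
  rw [intervalIntegral.integral_comp_mul_left (fun x => Real.cos x) hu, integral_cos, smul_eq_mul,
    abs_mul, abs_inv, div_eq_inv_mul]
  refine mul_le_mul_of_nonneg_left ?_ (inv_nonneg.2 (abs_nonneg u))
  refine (abs_sub _ _).trans ?_
  linarith [Real.abs_sin_le_one (u * 3), Real.abs_sin_le_one (u * -3)]

/-- The average of signed cosines. -/
def stat (K : ℕ) (s f : ℕ → ℝ) (y : ℝ) : ℝ := (∑ l ∈ range K, s l * Real.cos (f l * y)) / K

theorem continuous_stat (K : ℕ) (s f : ℕ → ℝ) : Continuous (stat K s f) := by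
  unfold stat
  fun_prop

theorem abs_cos_mul_cos_le (x y : ℝ) : |Real.cos x * Real.cos y| ≤ 1 := by
  rw [abs_mul]
  exact mul_le_one₀ (Real.abs_cos_le_one _) (abs_nonneg _) (Real.abs_cos_le_one _)

theorem lacunary_pair_le (u v d : ℝ) (hd : 0 < d) (h : d ≤ |v| - |u|) :
    |∫ x in (-3 : ℝ)..3, Real.cos (u * x) * Real.cos (v * x)| ≤ 2 / d := by
  have hu1 : d ≤ |v - u| := h.trans (abs_sub_abs_le_abs_sub _ _)
  have hu2 : d ≤ |v + u| := by
    have := abs_sub_abs_le_abs_sub v (-u)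
    rw [abs_neg, sub_neg_eq_add] at this
    exact h.trans this
  have hid : ∀ x, Real.cos (u * x) * Real.cos (v * x)
      = (Real.cos ((v - u) * x) + Real.cos ((v + u) * x)) / 2 := fun x => by
    rw [sub_mul, add_mul, Real.cos_add, Real.cos_sub]; ring
  simp_rw [hid]
  rw [intervalIntegral.integral_div, intervalIntegral.integral_add
    (Continuous.intervalIntegrable (by fun_prop) _ _)
    (Continuous.intervalIntegrable (by fun_prop) _ _), abs_div, abs_two, div_le_iff₀ two_pos]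
  refine (abs_add_le _ _).trans ?_
  have v1 := (abs_integral_cos_le _ (abs_pos.1 (hd.trans_le hu1))).trans
    (div_le_div_of_nonneg_left zero_le_two hd hu1)
  have v2 := (abs_integral_cos_le _ (abs_pos.1 (hd.trans_le hu2))).trans
    (div_le_div_of_nonneg_left zero_le_two hd hu2)
  linarith

theorem sum_diag_const (K : ℕ) (A B : ℝ) :
    ∑ l ∈ range K, ∑ l' ∈ range K, ((if l = l' then A else 0) + B) = K * A + (K : ℝ) ^ 2 * B := by
  have h : ∀ l ∈ range K, ∑ l' ∈ range K, ((if l = l' then A else 0) + B) = A + K * B := fun l hl => by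
    rw [Finset.sum_add_distrib, Finset.sum_ite_eq, if_pos hl, Finset.sum_const, card_range,
      nsmul_eq_mul]
  rw [Finset.sum_congr rfl h, Finset.sum_const, card_range, nsmul_eq_mul]
  ring

theorem stat_sq (K : ℕ) (s f : ℕ → ℝ) (x : ℝ) :
    stat K s f x ^ 2 = (∑ l ∈ range K, ∑ l' ∈ range K,
      s l * s l' * (Real.cos (f l * x) * Real.cos (f l' * x))) / (K : ℝ) ^ 2 := by
  rw [stat, div_pow, sq (∑ l ∈ range K, _), Finset.sum_mul_sum]
  refine congrArg₂ (· / ·) ?_ rfl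
  exact Finset.sum_congr rfl fun l _ => Finset.sum_congr rfl fun l' _ => by ring

theorem integral_stat_sq_le (lam : ℝ) (h0 : 0 ≤ lam) (h1 : lam < 1) (hl : (1 - lam)⁻¹ ≤ 17 / 7)
    (K : ℕ) (hK : 0 < (K : ℝ)) (s f : ℕ → ℝ) (hs : ∀ l, |s l| = 1)
    (hf : ∀ l l' : ℕ, l < l' →
      |∫ x in (-3 : ℝ)..3, Real.cos (f l * x) * Real.cos (f l' * x)| ≤ 2 * lam ^ l') :
    ∫ x in (-3 : ℝ)..3, stat K s f x ^ 2 ≤ 16 / K := by
  have hpair : ∀ l l' : ℕ,
      ∫ x in (-3 : ℝ)..3, s l * s l' * (Real.cos (f l * x) * Real.cos (f l' * x))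
        ≤ (if l = l' then (6 : ℝ) else 0) + 2 * (lam ^ l + lam ^ l') := by
    intro l l'
    rw [intervalIntegral.integral_const_mul]
    refine (le_abs_self _).trans ?_
    rw [abs_mul, abs_mul, hs, hs, one_mul, one_mul]
    have p0 := pow_nonneg h0 l
    have p1 := pow_nonneg h0 l'
    rcases lt_trichotomy l l' with hll | rfl | hll
    · rw [if_neg hll.ne]
      linarith [hf l l' hll]
    · rw [if_pos rfl]
      have := intervalIntegral.norm_integral_le_of_norm_le_const (a := (-3 : ℝ)) (b := 3)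
        (f := fun x => Real.cos (f l * x) * Real.cos (f l * x)) (C := 1)
        (fun x _ => abs_cos_mul_cos_le _ _)
      rw [Real.norm_eq_abs] at this
      norm_num at this
      linarith
    · rw [if_neg hll.ne']
      have := hf l' l hll
      simp_rw [mul_comm (Real.cos (f l' * _))] at this
      linarith
  simp_rw [stat_sq]
  rw [intervalIntegral.integral_div, intervalIntegral.integral_finsetSum
    (fun l _ => Continuous.intervalIntegrable (by fun_prop) _ _), div_le_iff₀ (by positivity)]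
  have hgeom : ∑ l ∈ range K, lam ^ l ≤ 17 / 7 := by
    have hsum := (summable_geometric_of_lt_one h0 h1).sum_le_tsum (range K)
      (fun i _ => pow_nonneg h0 i)
    rw [tsum_geometric_of_lt_one h0 h1] at hsum
    exact hsum.trans hl
  calc _ ≤ ∑ l ∈ range K, ∑ l' ∈ range K,
        ((if l = l' then (6 : ℝ) else 0) + 2 * (lam ^ l + lam ^ l')) := by
        refine Finset.sum_le_sum fun l _ => ?_
        rw [intervalIntegral.integral_finsetSum
          (fun l' _ => Continuous.intervalIntegrable (by fun_prop) _ _)]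
        exact Finset.sum_le_sum fun l' _ => hpair l l'
    _ = ∑ l ∈ range K, ∑ l' ∈ range K, ((if l = l' then (6 : ℝ) else 0) + 0)
        + 4 * K * ∑ l ∈ range K, lam ^ l := by
        simp only [Finset.sum_add_distrib, add_zero, mul_add, ← Finset.mul_sum, Finset.sum_const,
          card_range, nsmul_eq_mul]
        ring
    _ ≤ 16 / (K : ℝ) * (K : ℝ) ^ 2 := by
        rw [sum_diag_const, show 16 / (K : ℝ) * (K : ℝ) ^ 2 = 16 * K by field_simp]
        nlinarith

theorem volume_stat_le {a : ℝ} (ha : 0 < a) (T : ℝ → ℝ) (hT : Continuous T)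
    (hsq : ∫ x in (-3 : ℝ)..3, T x ^ 2 ≤ 16 * a ^ 3) :
    volume ({y | a / 4 ≤ T y} ∩ Set.Ioc (-3) 3) ≤ ENNReal.ofReal (256 * a) := by
  have : IsFiniteMeasure (volume.restrict (Set.Ioc (-3 : ℝ) 3)) :=
    isFiniteMeasure_restrict.2 (by rw [Real.volume_Ioc]; exact ENNReal.ofReal_ne_top)
  have hcheb := mul_meas_ge_le_integral_of_nonneg (μ := volume.restrict (Set.Ioc (-3 : ℝ) 3))
    (f := fun x => T x ^ 2) (Eventually.of_forall fun x => sq_nonneg _)
    ((hT.pow 2).continuousOn.integrableOn_Icc.mono_set Set.Ioc_subset_Icc_self) ((a / 4) ^ 2)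
  rw [intervalIntegral.integral_of_le (by norm_num)] at hsq
  have hsub : volume ({y | a / 4 ≤ T y} ∩ Set.Ioc (-3) 3)
      ≤ (volume.restrict (Set.Ioc (-3 : ℝ) 3)) {x | (a / 4) ^ 2 ≤ T x ^ 2} := by
    rw [Measure.restrict_apply' measurableSet_Ioc]
    refine measure_mono (Set.inter_subset_inter_left _ fun x (hx : a / 4 ≤ T x) => ?_)
    exact pow_le_pow_left₀ (by positivity) hx 2
  refine hsub.trans ?_
  refine (ENNReal.le_ofReal_iff_toReal_le (measure_ne_top _ _) (by positivity)).2 ?_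
  rw [← measureReal_def]
  have := hcheb.trans hsq
  nlinarith [pow_pos ha 2]

theorem stat_sub_sq (K : ℕ) (s f M : ℕ → ℝ) (hsM : ∀ l, s l * M l = |M l|) (x : ℝ) :
    (stat K s f x - (∑ l ∈ range K, |M l|) / K) ^ 2
      = (∑ l ∈ range K, ∑ l' ∈ range K, s l * s l' *
          ((Real.cos (f l * x) - M l) * (Real.cos (f l' * x) - M l'))) / (K : ℝ) ^ 2 := by
  have h1 : stat K s f x - (∑ l ∈ range K, |M l|) / K
      = (∑ l ∈ range K, s l * (Real.cos (f l * x) - M l)) / K := by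
    simp only [stat, ← sub_div, ← Finset.sum_sub_distrib, mul_sub, hsM]
  rw [h1, div_pow, sq (∑ l ∈ range K, _), Finset.sum_mul_sum]
  refine congrArg₂ (· / ·) ?_ rfl
  exact Finset.sum_congr rfl fun l _ => Finset.sum_congr rfl fun l' _ => by ring

theorem integral_pair (lam : ℝ) (h0 : 0 ≤ lam) (h1 : lam < 1) (u v : ℝ) :
    ∫ b, (Real.cos (u * series lam b) - trans lam u) * (Real.cos (v * series lam b) - trans lam v) ∂coins
      = (trans lam (u + v) + trans lam (u - v)) / 2 - trans lam u * trans lam v := by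
  have hc := continuous_series lam h0 h1
  have hi : ∀ t, Integrable (fun b => Real.cos (t * series lam b)) coins := fun t =>
    integrable_of_abs_le (by fun_prop) 1 fun b => Real.abs_cos_le_one _
  have hi2 : Integrable (fun b => Real.cos (u * series lam b) * Real.cos (v * series lam b)) coins :=
    integrable_of_abs_le (by fun_prop) 1 fun b => abs_cos_mul_cos_le _ _
  have heq : ∀ b, (Real.cos (u * series lam b) - trans lam u) * (Real.cos (v * series lam b) - trans lam v)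
      = Real.cos (u * series lam b) * Real.cos (v * series lam b)
        - (trans lam v * Real.cos (u * series lam b) + trans lam u * Real.cos (v * series lam b)
            - trans lam u * trans lam v) := fun b => by ring
  have i1 : Integrable (fun b => trans lam v * Real.cos (u * series lam b)
      + trans lam u * Real.cos (v * series lam b)) coins :=
    ((hi u).const_mul _).add ((hi v).const_mul _)
  have i2 : Integrable (fun b => trans lam v * Real.cos (u * series lam b)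
      + trans lam u * Real.cos (v * series lam b) - trans lam u * trans lam v) coins :=
    i1.sub (integrable_const _)
  simp_rw [heq]
  rw [integral_sub hi2 i2, integral_sub i1 (integrable_const _),
    integral_add ((hi u).const_mul _) ((hi v).const_mul _), integral_const_mul,
    integral_const_mul, integral_const, probReal_univ, one_smul, integral_cos_mul_cos lam h0 h1]
  simp only [trans]
  ring

theorem abs_trans_le (lam t : ℝ) : |trans lam t| ≤ 1 := by
  have := norm_integral_le_of_norm_le_const (μ := coins)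
    (f := fun b => Real.cos (t * series lam b)) (C := 1)
    (Eventually.of_forall fun b => Real.abs_cos_le_one _)
  simpa [trans, Real.norm_eq_abs] using this

theorem abs_self_cov_le (lam : ℝ) (h0 : 0 ≤ lam) (h1 : lam < 1) (u : ℝ) :
    |(trans lam (u + u) + trans lam (u - u)) / 2 - trans lam u * trans lam u| ≤ 1 := by
  rw [← integral_cos_mul_cos lam h0 h1]
  have hp := norm_integral_le_of_norm_le_const (μ := coins)
    (f := fun b => Real.cos (u * series lam b) * Real.cos (u * series lam b)) (C := 1)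
    (Eventually.of_forall fun b => abs_cos_mul_cos_le _ _)
  rw [probReal_univ, mul_one, Real.norm_eq_abs] at hp
  have hp' := (le_abs_self _).trans hp
  have hp0 : 0 ≤ ∫ b, Real.cos (u * series lam b) * Real.cos (u * series lam b) ∂coins :=
    integral_nonneg fun b => mul_self_nonneg _
  have hM := abs_le.1 (abs_trans_le lam u)
  rw [abs_le]
  constructor <;> nlinarith

theorem variance_le (lam : ℝ) (h0 : 0 ≤ lam) (h1 : lam < 1) (K : ℕ) (hK : 0 < (K : ℝ))
    (s f : ℕ → ℝ) (B : ℝ) (hs : ∀ l, |s l| = 1)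
    (hsM : ∀ l, s l * trans lam (f l) = |trans lam (f l)|)
    (hcov : ∀ l < K, ∀ l' < K,
      |(trans lam (f l + f l') + trans lam (f l - f l')) / 2 - trans lam (f l) * trans lam (f l')|
        ≤ (if l = l' then (1 : ℝ) else 0) + B) :
    ∫ b, (stat K s f (series lam b) - (∑ l ∈ range K, |trans lam (f l)|) / K) ^ 2 ∂coins
      ≤ (K : ℝ)⁻¹ + B := by
  have hc := continuous_series lam h0 h1
  simp_rw [stat_sub_sq K s f (fun l => trans lam (f l)) hsM]
  have hint : ∀ l l', Integrable (fun b => s l * s l' * ((Real.cos (f l * series lam b)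
      - trans lam (f l)) * (Real.cos (f l' * series lam b) - trans lam (f l')))) coins :=
    fun l l' => integrable_of_abs_le (by fun_prop) 4 fun b => by
      rw [abs_mul, abs_mul, abs_mul, hs, hs, one_mul, one_mul]
      have e1 : ∀ m, |Real.cos (f m * series lam b) - trans lam (f m)| ≤ 2 := fun m =>
        (abs_sub _ _).trans (by linarith [Real.abs_cos_le_one (f m * series lam b), abs_trans_le lam (f m)])
      have := mul_le_mul (e1 l) (e1 l') (abs_nonneg _) zero_le_two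
      linarith
  rw [integral_div, integral_finsetSum _ (fun l _ => integrable_finsetSum _ fun l' _ => hint l l'),
    div_le_iff₀ (by positivity)]
  calc _ ≤ ∑ l ∈ range K, ∑ l' ∈ range K, ((if l = l' then (1 : ℝ) else 0) + B) := by
        refine Finset.sum_le_sum fun l hl => ?_
        rw [integral_finsetSum _ (fun l' _ => hint l l')]
        refine Finset.sum_le_sum fun l' hl' => ?_
        rw [integral_const_mul, integral_pair lam h0 h1]
        refine (le_abs_self _).trans ?_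
        rw [abs_mul, abs_mul, hs, hs, one_mul, one_mul]
        exact hcov l (Finset.mem_range.1 hl) l' (Finset.mem_range.1 hl')
    _ = _ := by rw [sum_diag_const]; field_simp

theorem coins_stat_le {a : ℝ} (ha : 0 < a) (lam : ℝ) (h0 : 0 ≤ lam) (h1 : lam < 1)
    (hl : (1 - lam)⁻¹ ≤ 17 / 7) (T : ℝ → ℝ) (hT : Continuous T) (hTb : ∀ y, |T y| ≤ 1) (E : ℝ)
    (hE : a / 2 ≤ E) (hvar : ∫ b, (T (series lam b) - E) ^ 2 ∂coins ≤ 2 * a ^ 3) :
    nu lam ({y | a / 4 ≤ T y} ∩ Set.Ioc (-3) 3)ᶜ ≤ ENNReal.ofReal (32 * a) := by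
  have hc := continuous_series lam h0 h1
  have hAm : MeasurableSet ({y | a / 4 ≤ T y} ∩ Set.Ioc (-3) 3) :=
    (measurableSet_le measurable_const hT.measurable).inter measurableSet_Ioc
  have hcheb := mul_meas_ge_le_integral_of_nonneg (μ := coins)
    (f := fun b => (T (series lam b) - E) ^ 2) (Eventually.of_forall fun b => sq_nonneg _)
    (integrable_of_abs_le (((hT.comp hc).sub continuous_const).pow 2) ((1 + |E|) ^ 2) fun b => by
      rw [abs_pow]
      exact pow_le_pow_left₀ (abs_nonneg _) ((abs_sub _ _).trans (add_le_add (hTb _) le_rfl)) 2)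
    ((a / 4) ^ 2)
  rw [nu_eq, Measure.map_apply hc.measurable hAm.compl]
  have hsub : series lam ⁻¹' ({y | a / 4 ≤ T y} ∩ Set.Ioc (-3) 3)ᶜ
      ⊆ {b | (a / 4) ^ 2 ≤ (T (series lam b) - E) ^ 2} := by
    intro b hb
    have hb3 : series lam b ∈ Set.Ioc (-3 : ℝ) 3 := by
      have := abs_le.1 ((abs_series_le lam h0 h1 b).trans hl)
      constructor <;> linarith
    have hlow : T (series lam b) < a / 4 := by
      by_contra hcon
      exact hb ⟨not_lt.1 hcon, hb3⟩
    simp only [Set.mem_ofPred_eq]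
    rw [← neg_sq (T _ - _), neg_sub]
    exact pow_le_pow_left₀ (by positivity) (by linarith) 2
  refine (measure_mono hsub).trans ?_
  refine (ENNReal.le_ofReal_iff_toReal_le (measure_ne_top _ _) (by positivity)).2 ?_
  rw [← measureReal_def]
  have := hcheb.trans hvar
  nlinarith [pow_pos ha 2]

/-- The choice of the gap, the number of terms and the slack. -/
theorem exists_params {a e : ℝ} (W : ℕ) (hW : 1 ≤ W) (ha : 0 < a) (ha1 : a ≤ 1 / 1000)
    (he : 0 < e) (hea : e ≤ a ^ 32) (hlen : (W : ℝ) ^ 4 * e ^ 3 ≤ 1) (lam : ℝ) (hl0 : 0 ≤ lam)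
    (hl : lam ≤ 10 / 17) :
    ∃ g K : ℕ, 0 < g ∧ 0 < (K : ℝ) ∧ (K : ℝ)⁻¹ ≤ a ^ 3 ∧ lam ^ g ≤ a ^ 3 / 8 ∧
      2 * Real.pi * e * (((K + 1) * (W + 2 * g) : ℕ) : ℝ) ≤ a ^ 3 / 2 := by
  have haone : a ≤ 1 := by linarith
  have ha3 : 0 < a ^ 3 := pow_pos ha 3
  refine ⟨3 * ⌈3 / a⌉₊, ⌈(a ^ 3)⁻¹⌉₊, ?_, ?_, ?_, ?_, ?_⟩
  · have : 0 < ⌈3 / a⌉₊ := Nat.ceil_pos.2 (by positivity)
    omega
  · exact lt_of_lt_of_le (inv_pos.2 ha3) (Nat.le_ceil _)
  · rw [inv_le_comm₀ (lt_of_lt_of_le (inv_pos.2 ha3) (Nat.le_ceil _)) ha3]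
    exact Nat.le_ceil _
  · set n : ℕ := ⌈3 / a⌉₊ with hn
    have hn1 : 3 / a ≤ n := Nat.le_ceil _
    have hb : lam ^ n ≤ a / 2 := by
      refine (pow_le_pow_left₀ hl0 hl n).trans ?_
      have hbern := one_add_mul_le_pow (show (-2 : ℝ) ≤ 7 / 10 by norm_num) n
      have h17 : ((10 : ℝ) / 17) ^ n * (1 + 7 / 10) ^ n = 1 := by
        rw [← mul_pow]; norm_num
      have hbig : 2 / a ≤ (1 + 7 / 10 : ℝ) ^ n := by
        have := mul_le_mul_of_nonneg_right hn1 (show (0 : ℝ) ≤ 7 / 10 by norm_num)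
        have e2 : 3 / a * (7 / 10) = 2 / a + 1 / 10 / a := by ring
        have : 0 ≤ 1 / 10 / a := by positivity
        linarith
      have hmul := mul_le_mul_of_nonneg_left hbig (show (0 : ℝ) ≤ (10 / 17) ^ n by positivity)
      rw [h17, mul_div, div_le_one ha] at hmul
      linarith
    calc lam ^ (3 * n) = (lam ^ n) ^ 3 := by rw [mul_comm, pow_mul]
      _ ≤ (a / 2) ^ 3 := pow_le_pow_left₀ (pow_nonneg hl0 _) hb 3
      _ = a ^ 3 / 8 := by ring
  · set n : ℕ := ⌈3 / a⌉₊ with hn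
    set K : ℕ := ⌈(a ^ 3)⁻¹⌉₊ with hK
    have hn2 : (n : ℝ) ≤ 3 / a + 1 := (Nat.ceil_lt_add_one (by positivity)).le
    have hg2 : 3 * (n : ℝ) ≤ 12 / a := by
      have : (1 : ℝ) ≤ 1 / a := by rw [le_div_iff₀ ha]; linarith
      have e2 : 12 / a = 3 * (3 / a) + 3 * (1 / a) := by ring
      linarith
    have hWe : (W : ℝ) * e ≤ a ^ 8 := by
      refine (pow_le_pow_iff_left₀ (by positivity) (by positivity) (show (4 : ℕ) ≠ 0 by norm_num)).1 ?_
      calc ((W : ℝ) * e) ^ 4 = ((W : ℝ) ^ 4 * e ^ 3) * e := by ring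
        _ ≤ 1 * e := mul_le_mul_of_nonneg_right hlen he.le
        _ ≤ a ^ 32 := by linarith
        _ = (a ^ 8) ^ 4 := by ring
    have hK3 : (K : ℝ) + 1 ≤ 3 / a ^ 3 := by
      have h1 : (K : ℝ) ≤ (a ^ 3)⁻¹ + 1 := (Nat.ceil_lt_add_one (inv_nonneg.2 ha3.le)).le
      have h2 : (1 : ℝ) ≤ 1 / a ^ 3 := by
        rw [le_div_iff₀ ha3, one_mul]; exact pow_le_one₀ ha.le haone
      have h3 : 3 / a ^ 3 = (a ^ 3)⁻¹ + 2 * (1 / a ^ 3) := by ring
      linarith
    have hin : e * ((W : ℝ) + 2 * (3 * n)) ≤ 25 * a ^ 8 := by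
      have h1 : e * (3 * (n : ℝ)) ≤ 12 * a ^ 8 := by
        refine (mul_le_mul hea hg2 (by positivity) (by positivity)).trans ?_
        rw [show a ^ 32 * (12 / a) = 12 * (a ^ 31 * (a * a⁻¹)) by ring, mul_inv_cancel₀ ha.ne', mul_one]
        have := pow_le_pow_of_le_one ha.le haone (show 8 ≤ 31 by norm_num)
        linarith
      linarith
    push_cast
    calc 2 * Real.pi * e * (((K : ℝ) + 1) * ((W : ℝ) + 2 * (3 * n)))
        = 2 * Real.pi * ((K : ℝ) + 1) * (e * ((W : ℝ) + 2 * (3 * n))) := by ring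
      _ ≤ 8 * (3 / a ^ 3) * (25 * a ^ 8) := by
          refine mul_le_mul (mul_le_mul ?_ hK3 (by positivity) (by norm_num)) hin (by positivity)
            (by positivity)
          linarith [Real.pi_lt_four]
      _ = 600 * a ^ 5 := by field_simp; ring
      _ ≤ a ^ 3 / 2 := by nlinarith [pow_pos ha 3, mul_le_mul ha1 ha1 ha.le (by norm_num)]

theorem exists_separating_set {β : ℝ} {ζ : ℂ} {θ c : ℝ} {z : ℂ} {V U : ℕ} {e a : ℝ}
    (hβ : 17 / 10 < β) (hζ : ‖ζ‖ = 1) (h : Good β ζ θ c z V U e)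
    (ha : 0 < a) (ha1 : a ≤ 1 / 1000) (haW : a ≤ winProd β θ V U) (hea : e ≤ a ^ 32)
    (hlen : ((V + U + 1 : ℕ) : ℝ) ^ 4 * e ^ 3 ≤ 1) :
    ∃ A : Set ℝ, MeasurableSet A ∧ volume A ≤ ENNReal.ofReal (256 * a) ∧
      nu β⁻¹ Aᶜ ≤ ENNReal.ofReal (32 * a) := by
  have hβ0 : 0 < β := by linarith
  have hb1 : (1 : ℝ) ≤ β := by linarith
  have hl := lam_lt hβ
  have hl0 : 0 ≤ β⁻¹ := inv_nonneg.2 hβ0.le
  have hl1 : β⁻¹ < 1 := by linarith
  obtain ⟨g, K, hg, hK0, hKinv, hlg, herr⟩ :=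
    exists_params (V + U + 1) (by omega) ha ha1 h.e_pos hea hlen β⁻¹ hl0 hl
  set G : ℕ := V + U + 2 * g with hG
  have hidx : ∀ l < K, U + l * G + V + g ≤ (K + 1) * (V + U + 1 + 2 * g) := fun l hlK => by
    have h1 : l * G ≤ K * (V + U + 1 + 2 * g) := Nat.mul_le_mul hlK.le (by omega)
    have h2 : (K + 1) * (V + U + 1 + 2 * g) = K * (V + U + 1 + 2 * g) + (V + U + 1 + 2 * g) := by
      ring
    omega
  have herr' : ∀ l < K, ∀ m : ℕ, m ≤ U + l * G + V + g →
      2 * Real.pi * e * (m : ℝ) ≤ a ^ 3 / 2 := fun l hlK m hm => by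
    refine le_trans (mul_le_mul_of_nonneg_left ?_ ?_) herr
    · exact Nat.cast_le.2 (hm.trans (hidx l hlK))
    · have := h.e_pos; positivity
  set f : ℕ → ℝ := fun l => Real.pi * (θ * β ^ (U + l * G)) with hf
  set s : ℕ → ℝ := fun l => if 0 ≤ trans β⁻¹ (f l) then 1 else -1 with hs
  have hsabs : ∀ l, |s l| = 1 := fun l => by
    simp only [hs]; split_ifs <;> simp
  have hsM : ∀ l, s l * trans β⁻¹ (f l) = |trans β⁻¹ (f l)| := fun l => by
    simp only [hs]
    split_ifs with hpos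
    · rw [abs_of_nonneg hpos, one_mul]
    · rw [abs_of_neg (not_le.1 hpos)]; ring
  have hmean : ∀ l < K, a / 2 ≤ |trans β⁻¹ (f l)| := fun l hlK => by
    refine abs_trans_ge hβ hζ h ha.le haW (Nat.le_add_right _ _) ?_
    refine (herr' l hlK _ (by omega)).trans ?_
    have : a ^ 3 ≤ a := pow_le_of_le_one ha.le (by linarith) (by norm_num)
    linarith
  have hlt : ∀ l l' : ℕ, l < l' → l' < K → |(trans β⁻¹ (f l + f l') + trans β⁻¹ (f l - f l')) / 2
      - trans β⁻¹ (f l) * trans β⁻¹ (f l')| ≤ a ^ 3 := by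
    intro l l' hll hlK
    obtain ⟨d, rfl⟩ : ∃ d, l' = l + (d + 1) := ⟨l' - l - 1, by omega⟩
    have hkk : U + (l + (d + 1)) * G = U + l * G + (d + 1) * G := by ring
    have hD : V + U + 2 * g ≤ (d + 1) * G := Nat.le_mul_of_pos_left _ (Nat.succ_pos d)
    have := cov_le hβ hζ h (k := U + l * G) hD
    rw [← hkk] at this
    refine this.trans ?_
    have := herr' l (by omega) (U + l * G + V + g) le_rfl
    linarith [pow_pos ha 3]
  have hcov : ∀ l < K, ∀ l' < K, |(trans β⁻¹ (f l + f l') + trans β⁻¹ (f l - f l')) / 2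
      - trans β⁻¹ (f l) * trans β⁻¹ (f l')| ≤ (if l = l' then (1 : ℝ) else 0) + a ^ 3 := by
    intro l hlK l' hlK'
    rcases lt_trichotomy l l' with hll | rfl | hll
    · rw [if_neg hll.ne, zero_add]; exact hlt l l' hll hlK'
    · rw [if_pos rfl]
      have := abs_self_cov_le β⁻¹ hl0 hl1 (f l)
      linarith [pow_pos ha 3]
    · have := hlt l' l hll hlK
      rw [if_neg hll.ne', zero_add]
      rwa [add_comm (f l), show f l - f l' = -(f l' - f l) by ring, trans_neg,
        mul_comm (trans β⁻¹ (f l))]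
  have hoff : ∀ l l' : ℕ, l < l' →
      |∫ x in (-3 : ℝ)..3, Real.cos (f l * x) * Real.cos (f l' * x)| ≤ 2 * β⁻¹ ^ l' := by
    intro l l' hll
    have hk1 : U + l * G + 1 ≤ U + l' * G := by
      have : (l + 1) * G ≤ l' * G := Nat.mul_le_mul_right G hll
      rw [add_mul, one_mul] at this
      omega
    have hk2 : l' ≤ U + l' * G := by
      have := Nat.le_mul_of_pos_right l' (show 0 < G by omega)
      omega
    have habs : ∀ m, |f m| = Real.pi * |θ| * β ^ (U + m * G) := fun m => by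
      simp only [hf, abs_mul, abs_of_pos Real.pi_pos, abs_of_pos (pow_pos hβ0 _)]
      ring
    have hge : β ^ l' ≤ β ^ (U + l' * G) := pow_le_pow_right₀ hb1 hk2
    have hle : β * β ^ (U + l * G) ≤ β ^ (U + l' * G) := by
      rw [← pow_succ']; exact pow_le_pow_right₀ hb1 hk1
    have hbound : β ^ l' ≤ |f l'| - |f l| := by
      rw [habs, habs, ← mul_sub]
      have hP : 3 ≤ Real.pi * |θ| := by nlinarith [Real.pi_gt_three, h.one_le]
      have hx := pow_pos hβ0 (U + l * G)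
      have hdiff : β ^ (U + l' * G) * (7 / 17) ≤ β ^ (U + l' * G) - β ^ (U + l * G) := by nlinarith
      have := mul_le_mul hP hdiff (by positivity) (by positivity)
      nlinarith [pow_pos hβ0 (U + l' * G)]
    refine (lacunary_pair_le _ _ _ (pow_pos hβ0 _) hbound).trans (le_of_eq ?_)
    rw [inv_pow, div_eq_mul_inv]
  have hTb : ∀ y, |stat K s f y| ≤ 1 := fun y => by
    rw [stat, abs_div, abs_of_pos hK0, div_le_one hK0]
    refine (Finset.abs_sum_le_sum_abs _ _).trans ?_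
    refine (Finset.sum_le_card_nsmul _ _ 1 fun l _ => ?_).trans (by simp)
    rw [abs_mul, hsabs, one_mul]; exact Real.abs_cos_le_one _
  have hE : a / 2 ≤ (∑ l ∈ range K, |trans β⁻¹ (f l)|) / K := by
    rw [le_div_iff₀ hK0]
    have := Finset.card_nsmul_le_sum (range K) (fun l => |trans β⁻¹ (f l)|) (a / 2)
      fun l hl' => hmean l (Finset.mem_range.1 hl')
    rw [card_range, nsmul_eq_mul] at this
    linarith
  refine ⟨{y | a / 4 ≤ stat K s f y} ∩ Set.Ioc (-3) 3,
    (measurableSet_le measurable_const (continuous_stat K s f).measurable).inter measurableSet_Ioc,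
    volume_stat_le ha _ (continuous_stat K s f) ?_,
    coins_stat_le ha β⁻¹ hl0 hl1 (geom_le hβ) _ (continuous_stat K s f) hTb _ hE ?_⟩
  · refine (integral_stat_sq_le β⁻¹ hl0 hl1 (geom_le hβ) K hK0 s f hsabs hoff).trans ?_
    rw [div_eq_mul_inv]
    linarith
  · refine (variance_le β⁻¹ hl0 hl1 K hK0 s f (a ^ 3) hsabs hsM hcov).trans ?_
    linarith

theorem separationStmt : SeparationStmt := by
  intro β ζ hβ _ hζ hlev
  choose θ c z V U e a hgood ha ha2 haW hea hlen using fun p => hlev (p + 32)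
  have hsmall : ∀ p, a p ≤ (1 / 2 : ℝ) ^ p ∧ a p ≤ 1 / 1000 := fun p => by
    refine ⟨(ha2 p).trans (pow_le_pow_of_le_one (by norm_num) (by norm_num) (by omega)), ?_⟩
    refine ((ha2 p).trans (pow_le_pow_of_le_one (by norm_num) (by norm_num)
      (show 10 ≤ p + 32 by omega))).trans (by norm_num)
  have hex : ∀ p, ∃ A : Set ℝ, MeasurableSet A ∧ volume A ≤ ENNReal.ofReal (256 * a p) ∧
      nu β⁻¹ Aᶜ ≤ ENNReal.ofReal (32 * a p) := fun p =>
    exists_separating_set hβ hζ (hgood p) (ha p) (hsmall p).2 (haW p)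
      ((hea p).trans (pow_le_pow_of_le_one (ha p).le (by linarith [(hsmall p).2]) (by omega)))
      (hlen p)
  choose A hAm hAv hAn using hex
  have hgeo : ∀ C : ℝ, 0 ≤ C → ∑' p, ENNReal.ofReal (C * (1 / 2 : ℝ) ^ p) ≠ ⊤ := fun C hC => by
    rw [← ENNReal.ofReal_tsum_of_nonneg (fun p => by positivity)
      (summable_geometric_two.mul_left C)]
    exact ENNReal.ofReal_ne_top
  have hv : ∑' p, volume (A p) ≠ ⊤ := by
    refine ne_top_of_le_ne_top (hgeo 256 (by norm_num)) (ENNReal.tsum_le_tsum fun p => ?_)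
    exact (hAv p).trans (ENNReal.ofReal_le_ofReal (by linarith [(hsmall p).1]))
  have hn : ∑' p, nu β⁻¹ (A p)ᶜ ≠ ⊤ := by
    refine ne_top_of_le_ne_top (hgeo 32 (by norm_num)) (ENNReal.tsum_le_tsum fun p => ?_)
    exact (hAn p).trans (ENNReal.ofReal_le_ofReal (by linarith [(hsmall p).1]))
  refine Measure.MutuallySingular.mk (s := limsup (fun p => (A p)ᶜ) atTop) (t := limsup A atTop)
    (measure_limsup_atTop_eq_zero hn) (measure_limsup_atTop_eq_zero hv) ?_
  intro x _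
  rw [Set.mem_union, mem_limsup_iff_frequently_mem, mem_limsup_iff_frequently_mem]
  by_contra hx
  rw [not_or, not_frequently, not_frequently] at hx
  obtain ⟨p, hp1, hp2⟩ := (hx.1.and hx.2).exists
  exact hp1 hp2

end

end Vale.Agent.P105.Salem
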