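import Vale.Agent.P105.Salem.Interfaces

/-!
P105, M3: the window of the shifted frequency `θ (β ^ q - 1)` consists of two perturbed copies of the
window of `θ` and of factors close to one.
-/

namespace Vale.Agent.P105.Salem

open Finset

noncomputable section

/-- The absolute cosine of period one. -/
def cabs (x : ℝ) : ℝ := |Real.cos (Real.pi * x)|

theorem factor_eq_cabs (β θ : ℝ) (j : ℤ) : factor β θ j = cabs (θ * β ^ j) := rfl

theorem cabs_neg (x : ℝ) : cabs (-x) = cabs x := by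
  rw [cabs, cabs, mul_neg, Real.cos_neg]

theorem cabs_int_add (n : ℤ) (x : ℝ) : cabs (n + x) = cabs x := by
  rw [cabs, cabs, mul_add, add_comm, mul_comm Real.pi (n : ℝ), Real.cos_add_int_mul_pi, abs_mul,
    abs_neg_one_zpow, one_mul]

theorem abs_cabs_sub_cabs_le (x y : ℝ) : |cabs x - cabs y| ≤ Real.pi * |x - y| := by
  refine (abs_abs_sub_abs_le_abs_sub _ _).trans ((Real.abs_cos_sub_cos_le _ _).trans (le_of_eq ?_))
  rw [← mul_sub, abs_mul, abs_of_pos Real.pi_pos]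

theorem one_sub_le_cabs {x a : ℝ} (h : |x| ≤ a) : 1 - 5 * a ^ 2 ≤ cabs x := by
  have h1 := Real.one_sub_sq_div_two_le_cos (x := Real.pi * x)
  have h2 := le_abs_self (Real.cos (Real.pi * x))
  have h3 : x ^ 2 ≤ a ^ 2 := by rw [← sq_abs x]; exact pow_le_pow_left₀ (abs_nonneg x) h 2
  have h4 : Real.pi ^ 2 ≤ 10 := by nlinarith [Real.pi_lt_d4, Real.pi_pos]
  rw [mul_pow] at h1
  rw [cabs]
  nlinarith [mul_le_mul_of_nonneg_right h4 (sq_nonneg x), sq_nonneg x]

/-- Factors which move little compared with the least of them have a product which moves little. -/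
theorem one_sub_mul_prod_le {ι : Type*} (s : Finset ι) (w v η : ι → ℝ) (m : ℝ) (hm : 0 < m)
    (hw : ∀ i ∈ s, m ≤ w i) (hη : ∀ i ∈ s, 0 ≤ η i) (hv : ∀ i ∈ s, w i - η i ≤ v i) :
    ∀ κ : ℝ, κ ≤ 1 → ∑ i ∈ s, η i ≤ κ * m →
      (1 - κ) * ∏ i ∈ s, w i ≤ ∏ i ∈ s, v i ∧ ∀ i ∈ s, (1 - κ) * m ≤ v i := by
  classical
  induction s using Finset.induction_on with
  | empty =>
    intro κ _ h
    simp only [sum_empty] at h
    have : 0 ≤ κ := nonneg_of_mul_nonneg_left h hm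
    simpa using this
  | @insert a s ha ih =>
    intro κ hκ h
    simp only [forall_mem_insert] at hw hη hv
    rw [sum_insert ha] at h
    have hsum : 0 ≤ ∑ i ∈ s, η i := sum_nonneg hη.2
    set δ : ℝ := η a / m with hδ
    have hδm : δ * m = η a := div_mul_cancel₀ _ hm.ne'
    have hδ0 : 0 ≤ δ := div_nonneg hη.1 hm.le
    obtain ⟨hp, heach⟩ := ih hw.2 hη.2 hv.2 (κ - δ) (by linarith) (by nlinarith)
    have hδκ : δ ≤ κ := le_of_mul_le_mul_right (by linarith) hm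
    have hva : (1 - δ) * w a ≤ v a := by nlinarith [hw.1, hv.1]
    refine ⟨?_, (forall_mem_insert _ _ _).2 ⟨?_, fun i hi => ?_⟩⟩
    · rw [prod_insert ha, prod_insert ha]
      have hP : 0 ≤ ∏ i ∈ s, w i := prod_nonneg fun i hi => hm.le.trans (hw.2 i hi)
      have hwa : 0 ≤ w a := hm.le.trans hw.1
      calc (1 - κ) * (w a * ∏ i ∈ s, w i)
          ≤ ((1 - δ) * (1 - (κ - δ))) * (w a * ∏ i ∈ s, w i) := by
            refine mul_le_mul_of_nonneg_right ?_ (mul_nonneg hwa hP)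
            nlinarith
        _ = ((1 - δ) * w a) * ((1 - (κ - δ)) * ∏ i ∈ s, w i) := by ring
        _ ≤ v a * ∏ i ∈ s, v i :=
            mul_le_mul hva hp (mul_nonneg (by linarith) hP)
              ((mul_nonneg (by linarith) hwa).trans hva)
    · nlinarith [hw.1, hv.1]
    · exact le_trans (by nlinarith) (heach i hi)

theorem geom_sum_le_inv (x : ℝ) (h0 : 0 ≤ x) (h1 : x < 1) (n : ℕ) :
    ∑ k ∈ range n, x ^ k ≤ 1 / (1 - x) := by
  rw [le_div_iff₀ (by linarith), geom_sum_mul_neg]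
  linarith [pow_nonneg h0 n]

theorem winProd_eq_range (β θ : ℝ) (V U : ℕ) :
    winProd β θ V U = ∏ k ∈ range (V + U + 1), factor β θ (-(V : ℤ) + k) := by
  unfold winProd
  refine prod_nbij' (fun j => (j + V).toNat) (fun k => -(V : ℤ) + k) ?_ ?_ ?_ ?_ ?_
  · intro j hj; simp only [mem_Icc, mem_range] at hj ⊢; omega
  · intro k hk; simp only [mem_Icc, mem_range] at hk ⊢; omega
  · intro j hj; simp only [mem_Icc] at hj; omega
  · intro k hk; omega
  · intro j hj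
    simp only [mem_Icc] at hj
    congr 1
    omega

variable {β θ c : ℝ} {ζ z : ℂ} {V U : ℕ} {e m : ℝ}

theorem Good.small (hg : Good β ζ θ c z V U e) (hβ : 1 < β) (i : ℤ) (n : ℕ) (h : i + V + n ≤ 0) :
    |θ * β ^ i| ≤ (β⁻¹) ^ n / 20 := by
  have hb : (0 : ℝ) < β := by linarith
  rw [abs_mul, abs_of_pos (zpow_pos hb i)]
  have h1 : β ^ i ≤ β ^ (-((V + n : ℕ) : ℤ)) := zpow_le_zpow_right₀ hβ.le (by push_cast; omega)
  rw [zpow_neg, zpow_natCast, pow_add, mul_inv] at h1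
  calc |θ| * β ^ i ≤ β ^ V / 20 * ((β ^ V)⁻¹ * (β ^ n)⁻¹) := by
        gcongr
        linarith [hg.left_le]
    _ = (β⁻¹) ^ n / 20 := by rw [inv_pow]; field_simp

theorem Good.near (hg : Good β ζ θ c z V U e) (hβ : 1 < β) (hζ : ‖ζ‖ = 1) (i : ℤ) (n : ℕ)
    (h : (U : ℤ) + n ≤ i) : ∃ N : ℤ, |θ * β ^ i - N| ≤ (β⁻¹) ^ n / 20 + 2 * e := by
  obtain ⟨p, rfl⟩ := Int.eq_ofNat_of_zero_le (show (0 : ℤ) ≤ i by omega)
  obtain ⟨N, hN⟩ := hg.triple p
  refine ⟨N, ?_⟩
  have hb : (0 : ℝ) < β := by linarith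
  rw [zpow_natCast, show θ * β ^ p - N = -(c * β⁻¹ ^ p + 2 * (z * ζ ^ p).re) by linarith, abs_neg]
  refine (abs_add_le _ _).trans (add_le_add ?_ ?_)
  · rw [abs_mul, abs_of_pos (pow_pos (inv_pos.2 hb) p)]
    calc |c| * β⁻¹ ^ p ≤ β ^ U / 20 * β⁻¹ ^ (U + n) := by
          refine mul_le_mul (by linarith [hg.right_le]) ?_ (by positivity) (by positivity)
          exact pow_le_pow_of_le_one (by positivity) (inv_le_one_of_one_le₀ hβ.le) (by omega)
      _ = β⁻¹ ^ n / 20 := by rw [pow_add, inv_pow, inv_pow]; field_simp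
  · rw [abs_mul, abs_two]
    gcongr
    refine (Complex.abs_re_le_norm _).trans ?_
    rw [norm_mul, norm_pow, hζ, one_pow, mul_one]
    exact hg.neutral_le

theorem factor_shift (hβ : 0 < β) (q : ℕ) (j : ℤ) :
    factor β (θ * (β ^ q - 1)) j = cabs (θ * β ^ (j + q) - θ * β ^ j) := by
  rw [factor_eq_cabs, zpow_add₀ hβ.ne', zpow_natCast]
  ring_nf

theorem shift_far (hβ : 0 < β) (q : ℕ) (j : ℤ) {a b : ℝ} (N M : ℤ)
    (ha : |θ * β ^ (j + q) - N| ≤ a) (hb : |θ * β ^ j - M| ≤ b) :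
    1 - 5 * (a + b) ^ 2 ≤ factor β (θ * (β ^ q - 1)) j := by
  rw [factor_shift hβ, show θ * β ^ (j + q) - θ * β ^ j
    = ((N - M : ℤ) : ℝ) + ((θ * β ^ (j + q) - N) - (θ * β ^ j - M)) by push_cast; ring, cabs_int_add]
  exact one_sub_le_cabs ((abs_sub _ _).trans (add_le_add ha hb))

/-- Two margins, two copies of a window and a middle. -/
theorem combine_five (f : ℕ → ℝ) (L D : ℕ) (W m : ℝ) (hm : 0 < m) (hm1 : m ≤ 1) (hW : 0 ≤ W)
    (hfl : ∀ k < 2, (98 : ℝ) / 100 ≤ f k) (hfr : ∀ k < 2, (98 : ℝ) / 100 ≤ f (2 + L + D + L + k))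
    (hP1 : (1 - 1 / 100) * W ≤ ∏ k ∈ range L, f (2 + k))
    (hP2 : (1 - 1 / 10) * W ≤ ∏ k ∈ range L, f (2 + L + D + k))
    (hP3 : (1 - 1 / 4) * 1 ≤ ∏ k ∈ range D, f (2 + L + k))
    (hE1 : ∀ k ∈ range L, (1 - 1 / 100) * m ≤ f (2 + k))
    (hE2 : ∀ k ∈ range L, (1 - 1 / 10) * m ≤ f (2 + L + D + k))
    (hE3 : ∀ k ∈ range D, (1 - 1 / 4) * 1 ≤ f (2 + L + k)) :
    W ^ 2 / 4 ≤ ∏ k ∈ range (2 + L + D + L + 2), f k ∧
      ∀ k < 2 + L + D + L + 2, m / 2 ≤ f k := by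
  refine ⟨?_, fun k hk => ?_⟩
  · rw [prod_range_add f (2 + L + D + L) 2, prod_range_add f (2 + L + D) L,
      prod_range_add f (2 + L) D, prod_range_add f 2 L]
    have A : (96 : ℝ) / 100 ≤ ∏ k ∈ range 2, f k := by
      rw [prod_range_succ, prod_range_succ, prod_range_zero, one_mul]
      exact le_trans (by norm_num)
        (mul_le_mul (hfl 0 (by omega)) (hfl 1 (by omega)) (by norm_num)
          (le_trans (by norm_num) (hfl 0 (by omega))))
    have B : (96 : ℝ) / 100 ≤ ∏ k ∈ range 2, f (2 + L + D + L + k) := by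
      rw [prod_range_succ, prod_range_succ, prod_range_zero, one_mul]
      exact le_trans (by norm_num)
        (mul_le_mul (hfr 0 (by omega)) (hfr 1 (by omega)) (by norm_num)
          (le_trans (by norm_num) (hfr 0 (by omega))))
    generalize (∏ k ∈ range 2, f k) = a at A ⊢
    generalize (∏ k ∈ range 2, f (2 + L + D + L + k)) = b at B ⊢
    generalize (∏ k ∈ range L, f (2 + k)) = x at hP1 ⊢
    generalize (∏ k ∈ range L, f (2 + L + D + k)) = y at hP2 ⊢
    generalize (∏ k ∈ range D, f (2 + L + k)) = d at hP3 ⊢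
    have ha : 0 ≤ a := le_trans (by norm_num) A
    have hd : 0 ≤ d := le_trans (by norm_num) hP3
    have hx : 0 ≤ x := le_trans (mul_nonneg (by norm_num) hW) hP1
    have hy : 0 ≤ y := le_trans (mul_nonneg (by norm_num) hW) hP2
    calc W ^ 2 / 4
        ≤ 96 / 100 * ((1 - 1 / 100) * W) * ((1 - 1 / 4) * 1) * ((1 - 1 / 10) * W) * (96 / 100) := by
          nlinarith [sq_nonneg W]
      _ ≤ a * x * d * y * b := by gcongr
  · rcases lt_or_ge k 2 with h | h
    · linarith [hfl k h]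
    rcases lt_or_ge k (2 + L) with h2 | h2
    · obtain ⟨i, rfl⟩ := Nat.exists_eq_add_of_le h
      linarith [hE1 i (mem_range.2 (by omega))]
    rcases lt_or_ge k (2 + L + D) with h3 | h3
    · obtain ⟨i, rfl⟩ := Nat.exists_eq_add_of_le h2
      linarith [hE3 i (mem_range.2 (by omega))]
    rcases lt_or_ge k (2 + L + D + L) with h4 | h4
    · obtain ⟨i, rfl⟩ := Nat.exists_eq_add_of_le h3
      linarith [hE2 i (mem_range.2 (by omega))]
    · obtain ⟨i, rfl⟩ := Nat.exists_eq_add_of_le h4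
      linarith [hfr i (by omega)]

/-- The window of the shifted frequency. -/
theorem shift_window (hs : Steady β ζ θ c z V U e m) (h1 : 17 / 10 < β) (hζ : ‖ζ‖ = 1) (q : ℕ)
    (hq : 3 * (V + U + 1) ≤ q) (hqe : (q : ℝ) * e ^ 2 ≤ 1 / 300) :
    winProd β θ V U ^ 2 / 4 ≤ winProd β (θ * (β ^ q - 1)) (V + q + 2) (U + 2) ∧
      ∀ j ∈ Icc (-((V + q + 2 : ℕ) : ℤ)) ((U + 2 : ℕ) : ℤ), m / 2 ≤ factor β (θ * (β ^ q - 1)) j := by
  have hβ : 1 < β := by linarith
  have hb : (0 : ℝ) < β := by linarith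
  have he0 := hs.e_pos
  have he := hs.e_small
  have hm0 := hs.m_pos
  have hlong := hs.long
  have hinv0 : (0 : ℝ) < β⁻¹ := inv_pos.2 hb
  have hinv : β⁻¹ ≤ 10 / 17 := by
    rw [inv_le_iff_one_le_mul₀ hb]; linarith
  have hm1 : m ≤ 1 :=
    (hs.window 0 (by simp)).trans (Real.abs_cos_le_one _)
  set θ' : ℝ := θ * (β ^ q - 1) with hθ'
  set L : ℕ := V + U + 1 with hL
  set D : ℕ := q - L with hD
  have hqD : q = L + D := by omega
  have hR : V + q + 2 + (U + 2) + 1 = 2 + L + D + L + 2 := by omega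
  set f : ℕ → ℝ := fun k => factor β θ' (-((V + q + 2 : ℕ) : ℤ) + k) with hf
  -- the decay of the powers
  have hLpow : (L : ℝ) * 7 / 10 ≤ β ^ L := by
    have := one_add_mul_le_pow (show (-2 : ℝ) ≤ β - 1 by linarith) L
    rw [add_sub_cancel] at this
    have hL0 : (0 : ℝ) ≤ L := by positivity
    nlinarith
  have hlam : (β⁻¹) ^ D * L ≤ m / 70 := by
    have hmon : (β⁻¹) ^ D ≤ (β⁻¹) ^ (L + L) :=
      pow_le_pow_of_le_one hinv0.le (inv_le_one_of_one_le₀ hβ.le) (by omega)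
    refine (mul_le_mul_of_nonneg_right hmon (by positivity)).trans ?_
    rw [pow_add, inv_pow]
    have hpos : (0 : ℝ) < β ^ L := by positivity
    have htail := hs.tail_small
    rw [← hL] at htail
    rw [show (β ^ L)⁻¹ * (β ^ L)⁻¹ * (L : ℝ) = (L : ℝ) / (β ^ L * β ^ L) by field_simp,
      div_le_iff₀ (by positivity)]
    nlinarith
  have hLe : (L : ℝ) * e ≤ m / 100 := by
    have := hs.neutral_small
    rw [← hL] at this
    linarith
  have hπ := Real.pi_lt_d4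
  have hπ0 := Real.pi_pos
  -- the two margins
  have hmargin : ∀ a : ℝ, a ≤ 6 / 100 → 0 ≤ a → (98 : ℝ) / 100 ≤ 1 - 5 * a ^ 2 := by
    intro a h h0; nlinarith
  have hl1 : ∀ n : ℕ, 1 ≤ n → (β⁻¹) ^ n ≤ 10 / 17 := fun n hn =>
    (pow_le_of_le_one hinv0.le (inv_le_one_of_one_le₀ hβ.le) (by omega)).trans hinv
  have hfl : ∀ k < 2, (98 : ℝ) / 100 ≤ f k := by
    intro k hk
    set j : ℤ := -((V + q + 2 : ℕ) : ℤ) + k with hj
    have hA := hs.toGood.small hβ (j + q) 1 (by omega)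
    have hB := hs.toGood.small hβ j 1 (by omega)
    refine le_trans ?_ (shift_far hb q j 0 0
      (a := β⁻¹ ^ 1 / 20) (b := β⁻¹ ^ 1 / 20) (by simpa using hA) (by simpa using hB))
    exact hmargin _ (by linarith [hl1 1 le_rfl]) (by positivity)
  have hfr : ∀ k < 2, (98 : ℝ) / 100 ≤ f (2 + L + D + L + k) := by
    intro k hk
    set j : ℤ := -((V + q + 2 : ℕ) : ℤ) + ((2 + L + D + L + k : ℕ) : ℤ) with hj
    obtain ⟨N, hA⟩ := hs.toGood.near hβ hζ (j + q) 1 (by omega)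
    obtain ⟨M, hB⟩ := hs.toGood.near hβ hζ j 1 (by omega)
    refine le_trans ?_ (shift_far hb q j N M hA hB)
    exact hmargin _ (by linarith [hl1 1 le_rfl]) (by positivity)
  -- the lower copy of the window
  have hlow : ∀ k ∈ range L,
      factor β θ (-(V : ℤ) + k) - Real.pi / 20 * (β⁻¹) ^ D ≤ f (2 + k) := by
    intro k hk
    rw [mem_range] at hk
    set j : ℤ := -((V + q + 2 : ℕ) : ℤ) + ((2 + k : ℕ) : ℤ) with hj
    have hji : j + q = -(V : ℤ) + k := by omega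
    have hB := hs.toGood.small hβ j D (by omega)
    have h := abs_cabs_sub_cabs_le (θ * β ^ (j + q) - θ * β ^ j) (θ * β ^ (j + q))
    rw [show θ * β ^ (j + q) - θ * β ^ j - θ * β ^ (j + q) = -(θ * β ^ j) by ring, abs_neg] at h
    show factor β θ _ - _ ≤ factor β θ' j
    rw [factor_shift hb, factor_eq_cabs, ← hji]
    have h' := (abs_sub_le_iff.1 h).2
    nlinarith
  -- the upper copy of the window
  have hup : ∀ k ∈ range L,
      factor β θ (-(V : ℤ) + k) - Real.pi * ((β⁻¹) ^ D / 20 + 2 * e) ≤ f (2 + L + D + k) := by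
    intro k hk
    rw [mem_range] at hk
    set j : ℤ := -((V + q + 2 : ℕ) : ℤ) + ((2 + L + D + k : ℕ) : ℤ) with hj
    have hjk : j = -(V : ℤ) + k := by omega
    obtain ⟨N, hA⟩ := hs.toGood.near hβ hζ (j + q) D (by omega)
    have h := abs_cabs_sub_cabs_le ((θ * β ^ (j + q) - N) - θ * β ^ j) (-(θ * β ^ j))
    rw [cabs_neg, show (θ * β ^ (j + q) - N) - θ * β ^ j - -(θ * β ^ j) = θ * β ^ (j + q) - N by ring]
      at h
    show factor β θ _ - _ ≤ factor β θ' j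
    rw [factor_shift hb, show θ * β ^ (j + q) - θ * β ^ j
      = (N : ℝ) + ((θ * β ^ (j + q) - N) - θ * β ^ j) by ring, cabs_int_add, factor_eq_cabs, ← hjk]
    have h' := (abs_sub_le_iff.1 h).2
    nlinarith
  -- the middle
  have hmid : ∀ k ∈ range D,
      1 - 15 / 400 * ((β⁻¹ ^ 2) ^ (k + 1) + (β⁻¹ ^ 2) ^ (D - k)) - 60 * e ^ 2 ≤ f (2 + L + k) := by
    intro k hk
    rw [mem_range] at hk
    set j : ℤ := -((V + q + 2 : ℕ) : ℤ) + ((2 + L + k : ℕ) : ℤ) with hj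
    obtain ⟨N, hA⟩ := hs.toGood.near hβ hζ (j + q) (k + 1) (by omega)
    have hB := hs.toGood.small hβ j (D - k) (by omega)
    refine le_trans ?_ (shift_far hb q j N 0 hA
      (b := β⁻¹ ^ (D - k) / 20) (by simpa using hB))
    rw [← pow_mul, mul_comm 2 (k + 1), pow_mul, ← pow_mul β⁻¹ 2 (D - k), mul_comm 2 (D - k), pow_mul]
    generalize β⁻¹ ^ (k + 1) = u
    generalize β⁻¹ ^ (D - k) = v
    nlinarith [sq_nonneg (u / 20 - 2 * e), sq_nonneg (v / 20 - 2 * e), sq_nonneg (u - v)]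
  have hbounds : ∀ i ∈ range L, m ≤ factor β θ (-(V : ℤ) + i) := by
    intro i hi
    rw [mem_range] at hi
    exact hs.window _ (mem_Icc.2 ⟨by omega, by omega⟩)
  obtain ⟨hP1, hE1⟩ := one_sub_mul_prod_le (range L) (fun k => factor β θ (-(V : ℤ) + k))
    (fun k => f (2 + k)) (fun _ => Real.pi / 20 * (β⁻¹) ^ D) m hm0 hbounds
    (fun _ _ => by positivity) hlow (1 / 100) (by norm_num)
    (by rw [sum_const, card_range, nsmul_eq_mul]; nlinarith)
  obtain ⟨hP2, hE2⟩ := one_sub_mul_prod_le (range L) (fun k => factor β θ (-(V : ℤ) + k))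
    (fun k => f (2 + L + D + k)) (fun _ => Real.pi * ((β⁻¹) ^ D / 20 + 2 * e)) m hm0 hbounds
    (fun _ _ => by positivity) hup (1 / 10) (by norm_num)
    (by rw [sum_const, card_range, nsmul_eq_mul]; nlinarith)
  have hsum3 : ∑ k ∈ range D, (15 / 400 * ((β⁻¹ ^ 2) ^ (k + 1) + (β⁻¹ ^ 2) ^ (D - k)) + 60 * e ^ 2) ≤ 1 / 4 * (1 : ℝ) := by
    rw [sum_add_distrib, ← mul_sum, sum_add_distrib, sum_const, card_range, nsmul_eq_mul, mul_one]
    have hx0 : 0 ≤ β⁻¹ ^ 2 := by positivity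
    have hx : β⁻¹ ^ 2 ≤ 35 / 100 := by nlinarith
    have hrefl : ∑ k ∈ range D, (β⁻¹ ^ 2) ^ (D - k) = ∑ k ∈ range D, (β⁻¹ ^ 2) ^ (k + 1) := by
      rw [← sum_range_reflect]
      refine sum_congr rfl fun k hk => ?_
      rw [mem_range] at hk
      congr 1
      omega
    rw [hrefl]
    have hgeo : ∑ k ∈ range D, (β⁻¹ ^ 2) ^ (k + 1) ≤ 6 / 10 := by
      simp only [pow_succ, ← sum_mul]
      have := geom_sum_le_inv _ hx0 (by linarith) D
      have h2 : 1 / (1 - β⁻¹ ^ 2) ≤ 100 / 65 := by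
        rw [div_le_iff₀ (by linarith)]; linarith
      calc (∑ i ∈ range D, (β⁻¹ ^ 2) ^ i) * β⁻¹ ^ 2 ≤ (100 / 65) * (35 / 100) :=
            mul_le_mul (this.trans h2) hx hx0 (by norm_num)
        _ ≤ 6 / 10 := by norm_num
    have hDq : (D : ℝ) * e ^ 2 ≤ 1 / 300 :=
      le_trans (by gcongr; omega) hqe
    linarith
  obtain ⟨hP3, hE3⟩ := one_sub_mul_prod_le (range D) (fun _ => (1 : ℝ))
    (fun k => f (2 + L + k))
    (fun k => 15 / 400 * ((β⁻¹ ^ 2) ^ (k + 1) + (β⁻¹ ^ 2) ^ (D - k)) + 60 * e ^ 2) 1 one_pos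
    (fun _ _ => le_rfl) (fun _ _ => by positivity) (fun k hk => by linarith [hmid k hk]) (1 / 4)
    (by norm_num) hsum3
  have hone : ∏ _k ∈ range D, (1 : ℝ) = 1 := prod_const_one
  rw [hone] at hP3
  obtain ⟨hprod, hall⟩ := combine_five f L D (∏ k ∈ range L, factor β θ (-(V : ℤ) + k)) m hm0 hm1
    (prod_nonneg fun _ _ => abs_nonneg _) hfl hfr hP1 hP2 hP3 hE1 hE2 hE3
  refine ⟨?_, fun j hj => ?_⟩
  · rw [winProd_eq_range β θ', winProd_eq_range β θ, hR]
    exact hprod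
  · rw [mem_Icc] at hj
    obtain ⟨k, rfl⟩ : ∃ k : ℕ, j = -((V + q + 2 : ℕ) : ℤ) + k :=
      ⟨(j + ((V + q + 2 : ℕ) : ℤ)).toNat, by omega⟩
    exact hall k (by omega)

end

end Vale.Agent.P105.Salem
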