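import Vale.Agent.P105.Salem.StepShift
import Vale.Agent.P105.Salem.StepWindow

/-!
P105, M3: one step of the tower.
-/

namespace Vale.Agent.P105.Salem

open Finset

noncomputable section

theorem Triple.shift {β : ℝ} {ζ : ℂ} {θ c : ℝ} {z : ℂ} (h : Triple β ζ θ c z) (q : ℕ) :
    Triple β ζ (θ * (β ^ q - 1)) (c * ((β⁻¹) ^ q - 1)) (z * (ζ ^ q - 1)) := by
  intro j
  obtain ⟨n₁, h₁⟩ := h (j + q)
  obtain ⟨n₂, h₂⟩ := h j
  refine ⟨n₁ - n₂, ?_⟩
  rw [show z * (ζ ^ q - 1) * ζ ^ j = z * ζ ^ (j + q) - z * ζ ^ j by ring, Complex.sub_re,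
    Int.cast_sub, ← h₁, ← h₂]
  ring

theorem stepStmt : StepStmt := by
  intro β ζ h1 h2 hζ θ c z V U e m hs
  have hβ : 1 < β := by linarith
  have hb : (0 : ℝ) < β := by linarith
  have hm1 : m ≤ 1 := (hs.window 0 (by simp)).trans (Real.abs_cos_le_one _)
  obtain ⟨q, e', hq, hze, he'0, he's, hneu, hlen, hpow, hqe⟩ :=
    exists_shift ζ hζ (V + U + 1) e m hs.long hs.e_pos hs.e_small hm1 hs.neutral_small hs.length_le
  obtain ⟨hprod, hwin⟩ := shift_window hs h1 hζ q hq hqe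
  have hlong := hs.long
  have hN : V + q + 2 + (U + 2) + 1 = V + U + 1 + q + 4 := by omega
  have hpow2 : 2 ≤ β ^ q := by
    calc (2 : ℝ) ≤ β ^ 2 := by nlinarith
      _ ≤ β ^ q := pow_le_pow_right₀ hβ.le (by omega)
  have hinv : β⁻¹ ^ q ≤ 1 := pow_le_one₀ (inv_nonneg.2 hb.le) (inv_le_one_of_one_le₀ hβ.le)
  refine ⟨θ * (β ^ q - 1), c * ((β⁻¹) ^ q - 1), z * (ζ ^ q - 1), V + q + 2, U + 2, e',
    ⟨⟨hs.triple.shift q, ?_, ?_, ?_, ?_, he'0⟩, by linarith [hs.m_pos], hwin, by omega, he's, ?_, ?_, ?_⟩,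
    hprod, hpow⟩
  · rw [abs_mul, abs_of_nonneg (by linarith : (0 : ℝ) ≤ β ^ q - 1)]
    nlinarith [hs.one_le]
  · rw [abs_mul, abs_of_nonneg (by linarith : (0 : ℝ) ≤ β ^ q - 1), ← mul_assoc]
    calc 20 * |θ| * (β ^ q - 1) ≤ β ^ V * β ^ q := by
          gcongr
          · linarith
          · exact hs.left_le
          · linarith
      _ ≤ β ^ (V + q + 2) := by
          rw [← pow_add]; exact pow_le_pow_right₀ hβ.le (by omega)
  · rw [abs_mul, ← mul_assoc]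
    calc 20 * |c| * |β⁻¹ ^ q - 1| ≤ 20 * |c| * 1 := by
          gcongr
          rw [abs_le]
          constructor <;> linarith [pow_nonneg (inv_nonneg.2 hb.le) q]
      _ ≤ β ^ (U + 2) := by
          rw [mul_one]; exact hs.right_le.trans (pow_le_pow_right₀ hβ.le (by omega))
  · calc ‖z * (ζ ^ q - 1)‖ = ‖z‖ * ‖ζ ^ q - 1‖ := norm_mul _ _
      _ ≤ e * ‖ζ ^ q - 1‖ := by gcongr; exact hs.neutral_le
      _ ≤ e' := by rw [mul_comm]; exact hze
  · rw [hN]; exact hneu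
  · rw [hN, show V + U + 1 + q + 4 = V + U + 1 + (q + 4) by ring, pow_add]
    have h4 : 2 ≤ β ^ (q + 4) := hpow2.trans (pow_le_pow_right₀ hβ.le (by omega))
    calc (100 : ℝ) ≤ m * β ^ (V + U + 1) := hs.tail_small
      _ = m / 2 * (β ^ (V + U + 1) * 2) := by ring
      _ ≤ m / 2 * (β ^ (V + U + 1) * β ^ (q + 4)) := by
          have := hs.m_pos
          gcongr
  · rw [hN]; exact hlen

end

end Vale.Agent.P105.Salem
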