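import Vale.Agent.P105.Salem.Interfaces

/-!
P105, M4: climbing the tower makes the neutral part smaller than every fixed power of the Fourier value.
-/

namespace Vale.Agent.P105.Salem

open Finset

noncomputable section

theorem winProd_le_one (β θ : ℝ) (V U : ℕ) : winProd β θ V U ≤ 1 :=
  Finset.prod_le_one (fun _ _ => abs_nonneg _) fun _ _ => Real.abs_cos_le_one _

/-- The numerical form of the tower. -/
theorem exists_level (b f : ℝ) (hb0 : 0 < b) (hb : b ≤ 1 / 4) (hf0 : 0 ≤ f) (hf : f < 1) (p : ℕ) :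
    ∃ n : ℕ, 4 * b ^ 2 ^ n ≤ (1 / 2) ^ p ∧
      ∀ g : ℝ, 0 ≤ g → g ^ 4 ^ n ≤ f ^ 9 ^ n → g ≤ (b ^ 2 ^ n) ^ p := by
  obtain ⟨k, hk⟩ := exists_pow_lt_of_lt_one hb0 hf
  obtain ⟨n₀, hn₀⟩ := pow_unbounded_of_one_lt ((k * p : ℕ) : ℝ) (show (1 : ℝ) < 9 / 8 by norm_num)
  set n : ℕ := n₀ + (p + 1) with hn
  refine ⟨n, ?_, fun g hg hgf => ?_⟩
  · have h2 : p + 1 ≤ 2 ^ n := by
      have := Nat.lt_two_pow_self (n := n)
      omega
    calc 4 * b ^ 2 ^ n ≤ 4 * (1 / 4) ^ 2 ^ n := by gcongr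
      _ ≤ 4 * (1 / 4) ^ (p + 1) :=
          mul_le_mul_of_nonneg_left (pow_le_pow_of_le_one (by norm_num) (by norm_num) h2) (by norm_num)
      _ = (1 / 4) ^ p := by rw [pow_succ]; ring
      _ ≤ (1 / 2) ^ p := by gcongr; norm_num
  · have hkp : k * p * 8 ^ n ≤ 9 ^ n := by
      have h : ((k * p : ℕ) : ℝ) ≤ (9 / 8) ^ n :=
        hn₀.le.trans (pow_le_pow_right₀ (by norm_num) (by omega))
      rw [div_pow, le_div_iff₀ (by positivity)] at h
      exact_mod_cast h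
    refine le_of_pow_le_pow_left₀ (n := 4 ^ n) (by positivity) (by positivity) (hgf.trans ?_)
    calc f ^ 9 ^ n ≤ f ^ (k * p * 8 ^ n) := pow_le_pow_of_le_one hf0 hf.le hkp
      _ = (f ^ k) ^ (p * 8 ^ n) := by rw [← pow_mul, mul_assoc]
      _ ≤ b ^ (p * 8 ^ n) := by gcongr
      _ = ((b ^ 2 ^ n) ^ p) ^ 4 ^ n := by
          rw [← pow_mul, ← pow_mul, show (8 : ℕ) ^ n = 2 ^ n * 4 ^ n by rw [← mul_pow]; norm_num]
          congr 1
          ring

theorem towerStmt : TowerStmt := by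
  intro halg hbase hstep
  obtain ⟨h1, h2, hζ, -⟩ := halg
  obtain ⟨θ₀, c₀, z₀, V₀, U₀, e₀, m₀, hs₀⟩ := hbase
  set w : ℝ := winProd beta θ₀ V₀ U₀ with hw
  have hw0 : 0 < w := prod_pos fun j hj => hs₀.m_pos.trans_le (hs₀.window j hj)
  have hw1 : w ≤ 1 := winProd_le_one _ _ _ _
  set b : ℝ := w / 4 with hb
  have hb0 : 0 < b := by positivity
  set f : ℝ := 1400 * e₀ with hf
  have hf0 : 0 ≤ f := by have := hs₀.e_pos; positivity
  have hf1 : f < 1 := by linarith [hs₀.e_small]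
  have key : ∀ n : ℕ, ∃ (θ c : ℝ) (z : ℂ) (V U : ℕ) (e : ℝ),
      Steady beta zeta θ c z V U e (m₀ / 2 ^ n) ∧ 4 * b ^ 2 ^ n ≤ winProd beta θ V U ∧
        (1400 * e) ^ 4 ^ n ≤ f ^ 9 ^ n := by
    intro n
    induction n with
    | zero =>
      refine ⟨θ₀, c₀, z₀, V₀, U₀, e₀, by simpa using hs₀, ?_, by simp [hf]⟩
      rw [← hw, hb]
      simp
      linarith
    | succ n ih =>
      obtain ⟨θ, c, z, V, U, e, hs, ha, he⟩ := ih
      obtain ⟨θ', c', z', V', U', e', hs', ha', he'⟩ := hstep beta zeta h1 h2 hζ θ c z V U e _ hs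
      refine ⟨θ', c', z', V', U', e', ?_, ?_, ?_⟩
      · rwa [pow_succ, ← div_div]
      · refine le_trans ?_ ha'
        calc 4 * b ^ 2 ^ (n + 1) = (4 * b ^ 2 ^ n) ^ 2 / 4 := by ring
          _ ≤ winProd beta θ V U ^ 2 / 4 := by gcongr
      · have he0 := hs.e_pos
        have he0' := hs'.e_pos
        have h : (1400 * e') ^ 4 ≤ (1400 * e) ^ 9 := by
          rw [mul_pow, mul_pow]
          calc (1400 : ℝ) ^ 4 * e' ^ 4 ≤ 1400 ^ 4 * (8400 ^ 4 * e ^ 9) := by gcongr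
            _ ≤ 1400 ^ 9 * e ^ 9 := by
                rw [← mul_assoc]; gcongr; norm_num
        calc (1400 * e') ^ 4 ^ (n + 1) = ((1400 * e') ^ 4) ^ 4 ^ n := by
              rw [← pow_mul]; congr 1; ring
          _ ≤ ((1400 * e) ^ 9) ^ 4 ^ n := by gcongr
          _ = ((1400 * e) ^ 4 ^ n) ^ 9 := by rw [← pow_mul, ← pow_mul]; congr 1; ring
          _ ≤ (f ^ 9 ^ n) ^ 9 := by gcongr
          _ = f ^ 9 ^ (n + 1) := by rw [← pow_mul, pow_succ]
  intro p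
  obtain ⟨n, hn, hlevel⟩ := exists_level b f hb0 (by linarith) hf0 hf1 p
  obtain ⟨θ, c, z, V, U, e, hs, ha, he⟩ := key n
  have he0 := hs.e_pos
  refine ⟨θ, c, z, V, U, e, 4 * b ^ 2 ^ n, hs.toGood, by positivity, hn, ha, ?_, hs.length_le⟩
  calc e ≤ 1400 * e := by linarith
    _ ≤ (b ^ 2 ^ n) ^ p := hlevel _ (by positivity) he
    _ ≤ (4 * b ^ 2 ^ n) ^ p := by
        gcongr
        linarith [pow_pos hb0 (2 ^ n)]

end

end Vale.Agent.P105.Salem
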