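import Vale.Agent.P105.Salem.Algebra
import Vale.Agent.P105.Salem.Base
import Vale.Agent.P105.Salem.Step
import Vale.Agent.P105.Salem.Tower
import Vale.Agent.P105.Salem.Separation

/-!
P105: the Bernoulli convolution of ratio `beta⁻¹` is singular although `beta` is not a Pisot number.
-/

namespace Vale.Agent.P105.Salem

open MeasureTheory Polynomial

noncomputable section

theorem nu_singular : Measure.MutuallySingular (nu beta⁻¹) volume := by
  obtain ⟨h1, h2, hζ, -⟩ := algebraStmt
  exact separationStmt beta zeta h1 h2 hζ (towerStmt algebraStmt (baseStmt algebraStmt) stepStmt)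

theorem isIntegral_beta : IsIntegral ℤ beta := by
  refine ⟨X ^ 4 - X ^ 3 - X ^ 2 - X + 1, by monicity!, ?_⟩
  simpa [eval₂_sub, eval₂_add] using beta_poly

/-- Some Galois conjugate of the number, other than itself, has modulus one. -/
theorem exists_conjugate :
    ∃ z : ℂ, z ≠ (beta : ℂ) ∧ ‖z‖ = 1 ∧ aeval z (minpoly ℚ beta) = 0 := by
  obtain ⟨-, -, -, -, -, hroot⟩ := algebraStmt
  obtain ⟨z, hz, hn, hp⟩ := hroot (minpoly ℤ beta) (minpoly.aeval ℤ beta)
  refine ⟨z, hz, hn, ?_⟩
  rw [minpoly.isIntegrallyClosed_eq_field_fractions' ℚ isIntegral_beta, aeval_map_algebraMap]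
  exact hp

theorem isProbabilityMeasure_nu : IsProbabilityMeasure (nu beta⁻¹) := by
  obtain ⟨h1, -⟩ := algebraStmt
  have hb : (0 : ℝ) < beta := by linarith
  rw [nu_eq]
  exact Measure.isProbabilityMeasure_map
    (continuous_series _ (inv_nonneg.2 hb.le) (inv_lt_one_of_one_lt₀ (by linarith))).measurable.aemeasurable

end

end Vale.Agent.P105.Salem
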