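import Vale.Agent.P105.Salem.Interfaces

/-!
P105, M5, first part: the cosine transform of the Bernoulli convolution as a limit of products,
the product inequality, and the sine sums along a good triple.
-/

namespace Vale.Agent.P105.Salem

open MeasureTheory Finset Filter Topology

noncomputable section

/-- The random sign. -/
def sgn (b : Bool) : ℝ := if b then 1 else -1

/-- The random series. -/
def series (lam : ℝ) (b : ℕ → Bool) : ℝ := ∑' n, sgn (b n) * lam ^ n

/-- The probability space of fair signs. -/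
def coins : Measure (ℕ → Bool) := Measure.infinitePi fun _ : ℕ => coin

theorem nu_eq (lam : ℝ) : nu lam = coins.map (series lam) := rfl

instance isProbabilityMeasure_coin : IsProbabilityMeasure coin := by
  constructor
  simp [coin, ENNReal.inv_two_add_inv_two]

instance isProbabilityMeasure_coins : IsProbabilityMeasure coins := by
  unfold coins
  infer_instance

theorem abs_sgn (b : Bool) : |sgn b| = 1 := by
  cases b <;> simp [sgn]

theorem norm_term (lam : ℝ) (h0 : 0 ≤ lam) (b : ℕ → Bool) (n : ℕ) :
    ‖sgn (b n) * lam ^ n‖ = lam ^ n := by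
  rw [norm_mul, Real.norm_eq_abs, abs_sgn, one_mul, Real.norm_eq_abs, abs_of_nonneg (pow_nonneg h0 n)]

theorem summable_term (lam : ℝ) (h0 : 0 ≤ lam) (h1 : lam < 1) (b : ℕ → Bool) :
    Summable fun n => sgn (b n) * lam ^ n :=
  Summable.of_norm_bounded (summable_geometric_of_lt_one h0 h1) fun n => (norm_term lam h0 b n).le

theorem abs_series_le (lam : ℝ) (h0 : 0 ≤ lam) (h1 : lam < 1) (b : ℕ → Bool) :
    |series lam b| ≤ (1 - lam)⁻¹ :=
  tsum_of_norm_bounded (hasSum_geometric_of_lt_one h0 h1) fun n => (norm_term lam h0 b n).le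

theorem continuous_series (lam : ℝ) (h0 : 0 ≤ lam) (h1 : lam < 1) : Continuous (series lam) := by
  refine continuous_tsum (fun n => ?_) (summable_geometric_of_lt_one h0 h1)
    fun n b => (norm_term lam h0 b n).le
  exact ((continuous_of_discreteTopology (f := sgn)).comp (continuous_apply n)).mul continuous_const

theorem integral_coin (g : Bool → ℂ) : ∫ b, g b ∂coin = (g true + g false) / 2 := by
  have hi : ∀ x : Bool, Integrable g ((2⁻¹ : ENNReal) • Measure.dirac x) := fun x =>
    Integrable.smul_measure Integrable.of_finite (by simp)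
  unfold coin
  rw [integral_add_measure (hi true) (hi false), integral_smul_measure, integral_smul_measure,
    integral_dirac, integral_dirac]
  simp
  ring

/-- The finite products. -/
def fprod (lam t : ℝ) (N : ℕ) : ℝ := ∏ i ∈ range N, Real.cos (t * lam ^ i)

/-- The cosine transform. -/
def trans (lam t : ℝ) : ℝ := ∫ b, Real.cos (t * series lam b) ∂coins

theorem integral_exp_partial (lam t : ℝ) (N : ℕ) :
    ∫ b, Complex.exp (Complex.I * ((t * ∑ i ∈ range N, sgn (b i) * lam ^ i : ℝ) : ℂ)) ∂coins
      = (fprod lam t N : ℝ) := by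
  have hprod : ∀ b : ℕ → Bool,
      Complex.exp (Complex.I * ((t * ∑ i ∈ range N, sgn (b i) * lam ^ i : ℝ) : ℂ))
        = ∏ i : Fin N, Complex.exp (Complex.I * ((t * (sgn (b i) * lam ^ (i : ℕ)) : ℝ) : ℂ)) := by
    intro b
    rw [← Complex.exp_sum, Finset.mul_sum, Complex.ofReal_sum, Finset.mul_sum]
    congr 1
    exact (Fin.sum_univ_eq_sum_range
      (fun i => Complex.I * ((t * (sgn (b i) * lam ^ i) : ℝ) : ℂ)) N).symm
  simp_rw [hprod]
  let r : (ℕ → Bool) → (Fin N → Bool) := fun b i => b i
  have hr : MeasurePreserving r coins (Measure.pi fun _ : Fin N => coin) := by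
    refine ⟨measurable_pi_lambda _ fun i => measurable_pi_apply _, ?_⟩
    refine (Measure.pi_eq fun s hs => ?_).symm
    have hm : Measurable r := measurable_pi_lambda _ fun i => measurable_pi_apply _
    rw [Measure.map_apply hm (MeasurableSet.univ_pi hs)]
    classical
    let s' : ℕ → Set Bool := fun n => if h : n < N then s ⟨n, h⟩ else Set.univ
    have hpre : r ⁻¹' Set.univ.pi s = Set.pi (range N : Finset ℕ) s' := by
      ext b
      simp only [Set.mem_preimage, Set.mem_pi, Set.mem_univ, forall_const, coe_range, Set.mem_Iio]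
      constructor
      · intro h n hn
        simpa [s', hn, r] using h ⟨n, hn⟩
      · intro h i
        simpa [s', i.2, r] using h i i.2
    rw [hpre, coins, Measure.infinitePi_pi (μ := fun _ : ℕ => coin) (s := range N) (t := s')]
    · rw [← Fin.prod_univ_eq_prod_range]
      refine Finset.prod_congr rfl fun i _ => ?_
      simp [s', i.2]
    · intro n _
      exact Set.Finite.measurableSet (Set.toFinite _)
  let g : Fin N → Bool → ℂ := fun i x =>
    Complex.exp (Complex.I * ((t * (sgn x * lam ^ (i : ℕ)) : ℝ) : ℂ))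
  have h2 : ∫ b, ∏ i : Fin N, g i (r b i) ∂coins
      = ∫ x, ∏ i : Fin N, g i (x i) ∂(Measure.pi fun _ : Fin N => coin) := by
    rw [← hr.map_eq, integral_map hr.measurable.aemeasurable]
    exact AEStronglyMeasurable.of_discrete
  refine h2.trans ?_
  rw [integral_fintype_prod_eq_prod]
  simp_rw [integral_coin]
  rw [fprod, Complex.ofReal_prod]
  refine (Finset.prod_congr rfl fun i _ => ?_).trans
    (Fin.prod_univ_eq_prod_range (fun i => ((Real.cos (t * lam ^ i) : ℝ) : ℂ)) N)
  simp only [g, sgn, if_true, Bool.false_eq_true, if_false]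
  rw [Complex.ofReal_cos, Complex.cos]
  push_cast
  ring_nf

theorem integral_cos_partial (lam t : ℝ) (N : ℕ) :
    ∫ b, Real.cos (t * ∑ i ∈ range N, sgn (b i) * lam ^ i) ∂coins = fprod lam t N := by
  have hc : Continuous fun b : ℕ → Bool =>
      Complex.exp (Complex.I * ((t * ∑ i ∈ range N, sgn (b i) * lam ^ i : ℝ) : ℂ)) := by
    have : Continuous fun b : ℕ → Bool => ∑ i ∈ range N, sgn (b i) * lam ^ i :=
      continuous_finsetSum _ fun i _ =>
        ((continuous_of_discreteTopology (f := sgn)).comp (continuous_apply i)).mul continuous_const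
    fun_prop
  have hint : Integrable (fun b : ℕ → Bool =>
      Complex.exp (Complex.I * ((t * ∑ i ∈ range N, sgn (b i) * lam ^ i : ℝ) : ℂ))) coins := by
    refine Integrable.of_bound hc.aestronglyMeasurable 1 (Eventually.of_forall fun b => ?_)
    rw [Complex.norm_exp_I_mul_ofReal]
  have h := congrArg Complex.re (integral_exp_partial lam t N)
  rw [Complex.ofReal_re] at h
  rw [← h]
  change _ = RCLike.re (∫ b, Complex.exp _ ∂coins)
  rw [← integral_re hint]
  refine integral_congr_ae (Eventually.of_forall fun b => ?_)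
  change _ = (Complex.exp _).re
  rw [mul_comm Complex.I, Complex.exp_ofReal_mul_I_re]

theorem tendsto_fprod (lam t : ℝ) (h0 : 0 ≤ lam) (h1 : lam < 1) :
    Tendsto (fun N => fprod lam t N) atTop (𝓝 (trans lam t)) := by
  have h := tendsto_integral_of_dominated_convergence (μ := coins)
    (F := fun N b => Real.cos (t * ∑ i ∈ range N, sgn (b i) * lam ^ i))
    (f := fun b => Real.cos (t * series lam b)) (fun _ => (1 : ℝ))
    (fun N => by
      refine Continuous.aestronglyMeasurable ?_
      exact Real.continuous_cos.comp (continuous_const.mul (continuous_finsetSum _ fun i _ =>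
        ((continuous_of_discreteTopology (f := sgn)).comp (continuous_apply i)).mul continuous_const)))
    (integrable_const _)
    (fun N => Eventually.of_forall fun b => by
      rw [Real.norm_eq_abs]; exact Real.abs_cos_le_one _)
    (Eventually.of_forall fun b =>
      ((Real.continuous_cos.comp (continuous_const.mul continuous_id)).tendsto _).comp
        (summable_term lam h0 h1 b).hasSum.tendsto_sum_nat)
  simp_rw [integral_cos_partial] at h
  exact h

theorem abs_cos_ge (x : ℝ) : 1 - |Real.sin x| ≤ |Real.cos x| := by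
  have h := Real.sin_sq_add_cos_sq x
  have hc := Real.abs_cos_le_one x
  have hs := Real.abs_sin_le_one x
  nlinarith [sq_abs (Real.sin x), sq_abs (Real.cos x), abs_nonneg (Real.cos x),
    abs_nonneg (Real.sin x)]

theorem one_sub_sum_le_prod {ι : Type*} (s : Finset ι) (a : ι → ℝ) :
    1 - ∑ i ∈ s, |Real.sin (a i)| ≤ ∏ i ∈ s, |Real.cos (a i)| := by
  classical
  induction s using Finset.induction with
  | empty => simp
  | insert i s hi ih =>
    rw [Finset.sum_insert hi, Finset.prod_insert hi]
    have hp : 0 ≤ ∏ j ∈ s, |Real.cos (a j)| := Finset.prod_nonneg fun j _ => abs_nonneg _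
    have hS : 0 ≤ ∑ j ∈ s, |Real.sin (a j)| := Finset.sum_nonneg fun j _ => abs_nonneg _
    have h1 := abs_cos_ge (a i)
    have hp1 : ∏ j ∈ s, |Real.cos (a j)| ≤ 1 :=
      Finset.prod_le_one (fun j _ => abs_nonneg _) fun j _ => Real.abs_cos_le_one _
    nlinarith [mul_le_mul_of_nonneg_right h1 hp,
      mul_le_of_le_one_right (abs_nonneg (Real.sin (a i))) hp1]

theorem abs_prod_cos_add_sub {ι : Type*} (s : Finset ι) (a b : ι → ℝ) :
    |(∏ i ∈ s, Real.cos (a i + b i)) - (∏ i ∈ s, Real.cos (a i)) * ∏ i ∈ s, Real.cos (b i)|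
      ≤ ∑ i ∈ s, |Real.sin (a i)| * |Real.sin (b i)| := by
  classical
  induction s using Finset.induction with
  | empty => simp
  | insert i s hi ih =>
    simp only [Finset.prod_insert hi, Finset.sum_insert hi]
    set P := ∏ j ∈ s, Real.cos (a j + b j) with hP
    set A := ∏ j ∈ s, Real.cos (a j) with hA
    set B := ∏ j ∈ s, Real.cos (b j) with hB
    have hPle : |P| ≤ 1 := by
      rw [hP, Finset.abs_prod]
      exact Finset.prod_le_one (fun j _ => abs_nonneg _) fun j _ => Real.abs_cos_le_one _
    have key : Real.cos (a i + b i) * P - Real.cos (a i) * A * (Real.cos (b i) * B)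
        = -(Real.sin (a i) * Real.sin (b i) * P)
          + Real.cos (a i) * Real.cos (b i) * (P - A * B) := by
      rw [Real.cos_add]; ring
    rw [key]
    refine (abs_add_le _ _).trans (add_le_add ?_ ?_)
    · rw [abs_neg, abs_mul, abs_mul]
      exact mul_le_of_le_one_right (by positivity) hPle
    · rw [abs_mul, abs_mul]
      refine (mul_le_of_le_one_left (abs_nonneg _) ?_).trans ih
      exact mul_le_one₀ (Real.abs_cos_le_one _) (abs_nonneg _) (Real.abs_cos_le_one _)

theorem sum_range_rev_le (lam : ℝ) (h0 : 0 ≤ lam) (h1 : lam < 1) (n : ℕ) :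
    ∑ i ∈ range n, lam ^ (n - 1 - i) ≤ (1 - lam)⁻¹ := by
  rw [Finset.sum_range_reflect (fun i => lam ^ i) n]
  have h := (summable_geometric_of_lt_one h0 h1).sum_le_tsum (range n)
    (fun i _ => pow_nonneg h0 i)
  rwa [tsum_geometric_of_lt_one h0 h1] at h

theorem sum_lo_le (lam B C : ℝ) (h0 : 0 ≤ lam) (h1 : lam < 1) (hC : 0 ≤ C) (f : ℕ → ℝ) (n : ℕ)
    (hf : ∀ i < n, f i ≤ B + C * lam ^ (n - 1 - i)) :
    ∑ i ∈ range n, f i ≤ n * B + C * (1 - lam)⁻¹ := by
  refine (Finset.sum_le_sum fun i hi => hf i (Finset.mem_range.1 hi)).trans ?_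
  rw [Finset.sum_add_distrib, ← Finset.mul_sum, Finset.sum_const, card_range, nsmul_eq_mul]
  exact add_le_add le_rfl (mul_le_mul_of_nonneg_left (sum_range_rev_le lam h0 h1 n) hC)

theorem sum_hi_le (lam C : ℝ) (h0 : 0 ≤ lam) (h1 : lam < 1) (hC : 0 ≤ C) (f : ℕ → ℝ) (n N : ℕ)
    (hf : ∀ i, n ≤ i → f i ≤ C * lam ^ (i - n)) :
    ∑ i ∈ Ico n N, f i ≤ C * (1 - lam)⁻¹ := by
  refine (Finset.sum_le_sum fun i hi => hf i (Finset.mem_Ico.1 hi).1).trans ?_
  rw [← Finset.mul_sum, Finset.sum_Ico_eq_sum_range]
  refine mul_le_mul_of_nonneg_left ?_ hC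
  simp only [Nat.add_sub_cancel_left]
  have h := (summable_geometric_of_lt_one h0 h1).sum_le_tsum (range (N - n))
    (fun i _ => pow_nonneg h0 i)
  rwa [tsum_geometric_of_lt_one h0 h1] at h

end

end Vale.Agent.P105.Salem
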