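import Vale.Agent.P105.Salem.Defs

/-!
P105, the Bernoulli convolution of a Salem number of degree four: one statement per module.
-/

namespace Vale.Agent.P105.Salem

open MeasureTheory

noncomputable section

/-- M1: elementary facts about the number, and it is not a Pisot number. -/
def AlgebraStmt : Prop :=
  17 / 10 < beta ∧ beta < 18 / 10 ∧ ‖zeta‖ = 1 ∧
  (∀ A B : ℤ, Triple beta zeta (A * sPlus + B) (A * sPlus + B) ((A * sMinus + B : ℝ) : ℂ)) ∧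
  beta ^ 4 - beta ^ 3 - beta ^ 2 - beta + 1 = 0 ∧
  ∀ p : Polynomial ℤ, Polynomial.aeval beta p = 0 →
    ∃ z : ℂ, z ≠ (beta : ℂ) ∧ ‖z‖ = 1 ∧ Polynomial.aeval z p = 0

/-- M2: a first member of the tower. -/
def BaseStmt : Prop :=
  ∃ (θ c : ℝ) (z : ℂ) (V U : ℕ) (e m : ℝ), Steady beta zeta θ c z V U e m

/-- M3: the Fourier value squares while the neutral part decreases with exponent `9/4`. -/
def StepStmt : Prop :=
  ∀ (β : ℝ) (ζ : ℂ), 17 / 10 < β → β < 18 / 10 → ‖ζ‖ = 1 →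
  ∀ (θ c : ℝ) (z : ℂ) (V U : ℕ) (e m : ℝ), Steady β ζ θ c z V U e m →
    ∃ (θ' c' : ℝ) (z' : ℂ) (V' U' : ℕ) (e' : ℝ), Steady β ζ θ' c' z' V' U' e' (m / 2) ∧
      winProd β θ V U ^ 2 / 4 ≤ winProd β θ' V' U' ∧ e' ^ 4 ≤ 8400 ^ 4 * e ^ 9

/-- Frequencies whose neutral part is far smaller than every fixed power of the Fourier value. -/
def LevelsStmt (β : ℝ) (ζ : ℂ) : Prop :=
  ∀ p : ℕ, ∃ (θ c : ℝ) (z : ℂ) (V U : ℕ) (e a : ℝ), Good β ζ θ c z V U e ∧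
    0 < a ∧ a ≤ (1 / 2) ^ p ∧ a ≤ winProd β θ V U ∧ e ≤ a ^ p ∧
    ((V + U + 1 : ℕ) : ℝ) ^ 4 * e ^ 3 ≤ 1

/-- M4: the tower climbed from the base. -/
def TowerStmt : Prop :=
  AlgebraStmt → BaseStmt → StepStmt → LevelsStmt beta zeta

/-- M5: a lacunary average of cosines separates the measure from Lebesgue measure. -/
def SeparationStmt : Prop :=
  ∀ (β : ℝ) (ζ : ℂ), 17 / 10 < β → β < 18 / 10 → ‖ζ‖ = 1 → LevelsStmt β ζ →
    Measure.MutuallySingular (nu β⁻¹) volume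

end

end Vale.Agent.P105.Salem
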