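import Vale.Agent.P105.Salem.Interfaces

/-!
P105, M3: the shift of the tower, chosen by Dirichlet's approximation theorem.
-/

namespace Vale.Agent.P105.Salem

open Complex

noncomputable section

theorem norm_pow_sub_one_le_mul (x : ℂ) (hx : ‖x‖ = 1) (t : ℕ) : ‖x ^ t - 1‖ ≤ t * ‖x - 1‖ := by
  induction t with
  | zero => simp
  | succ t ih =>
    have h : x ^ (t + 1) - 1 = x * (x ^ t - 1) + (x - 1) := by ring
    rw [h]
    refine (norm_add_le _ _).trans ?_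
    rw [norm_mul, hx, one_mul]
    push_cast
    linarith

/-- A short return of a rotation to the identity. -/
theorem exists_return (ζ : ℂ) (hζ : ‖ζ‖ = 1) (Q : ℕ) (hQ : 0 < Q) :
    ∃ q : ℕ, 0 < q ∧ q ≤ Q ∧ ‖ζ ^ q - 1‖ ≤ 2 * Real.pi / (Q + 1) := by
  obtain ⟨j, k, hk0, hkQ, h⟩ := Real.exists_int_int_abs_mul_sub_le (ζ.arg / (2 * Real.pi)) hQ
  obtain ⟨q, rfl⟩ := Int.eq_ofNat_of_zero_le hk0.le
  refine ⟨q, by exact_mod_cast hk0, by exact_mod_cast hkQ, ?_⟩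
  have hζe : ζ = exp (ζ.arg * I) := by
    conv_lhs => rw [← norm_mul_exp_arg_mul_I ζ, hζ, ofReal_one, one_mul]
  set x : ℝ := 2 * Real.pi * (((q : ℤ) : ℝ) * (ζ.arg / (2 * Real.pi)) - j) with hx
  have hpow : ζ ^ q = exp (I * x) := by
    conv_lhs => rw [hζe, ← exp_nat_mul]
    rw [exp_eq_exp_iff_exists_int]
    refine ⟨j, ?_⟩
    rw [hx]
    push_cast
    have : (Real.pi : ℂ) ≠ 0 := ofReal_ne_zero.2 Real.pi_ne_zero
    field_simp
    ring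
  rw [hpow]
  refine (Real.norm_exp_I_mul_ofReal_sub_one_le).trans ?_
  rw [hx, Real.norm_eq_abs, abs_mul, abs_of_pos (by positivity : (0 : ℝ) < 2 * Real.pi),
    div_eq_mul_one_div (2 * Real.pi) ((Q : ℝ) + 1)]
  gcongr

/-- The shift `q`, at least three windows long, and the new neutral bound `e'`. -/
theorem exists_shift (ζ : ℂ) (hζ : ‖ζ‖ = 1) (L : ℕ) (e m : ℝ) (hL : 42 ≤ L) (he0 : 0 < e)
    (he : e ≤ 1 / 100000) (hm : m ≤ 1) (hsmall : 100 * (L : ℝ) * e ≤ m) (hlen : (L : ℝ) ^ 4 * e ^ 3 ≤ 1) :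
    ∃ (q : ℕ) (e' : ℝ), 3 * L ≤ q ∧ ‖ζ ^ q - 1‖ * e ≤ e' ∧ 0 < e' ∧ e' ≤ 1 / 100000 ∧
      100 * ((L + q + 4 : ℕ) : ℝ) * e' ≤ m / 2 ∧ ((L + q + 4 : ℕ) : ℝ) ^ 4 * e' ^ 3 ≤ 1 ∧
      e' ^ 4 ≤ 8400 ^ 4 * e ^ 9 ∧ (q : ℝ) * e ^ 2 ≤ 1 / 300 := by
  set Q : ℕ := ⌊1 / (400 * e ^ 2)⌋₊ with hQ
  have he2 : 400 * e ^ 2 ≤ 1 := by nlinarith
  have hQ0 : 0 < Q := Nat.floor_pos.2 (by rw [le_div_iff₀ (by positivity)]; linarith)
  obtain ⟨r, hr0, hrQ, hr⟩ := exists_return ζ hζ Q hQ0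
  have hr' : ‖ζ ^ r - 1‖ ≤ 2514 * e ^ 2 := by
    refine hr.trans ?_
    have h1 : 1 / (400 * e ^ 2) < (Q : ℝ) + 1 := Nat.lt_floor_add_one _
    rw [div_lt_iff₀ (by positivity)] at h1
    rw [div_le_iff₀ (by positivity)]
    have hπ := Real.pi_lt_d4
    have hq1 : (0 : ℝ) ≤ 2514 * (e ^ 2 * (Q + 1)) := by positivity
    nlinarith
  have hrQ' : (r : ℝ) * (400 * e ^ 2) ≤ 1 := by
    have h1 : (r : ℝ) ≤ 1 / (400 * e ^ 2) :=
      (Nat.cast_le.2 hrQ).trans (Nat.floor_le (by positivity))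
    rwa [le_div_iff₀ (by positivity)] at h1
  have hLr : (42 : ℝ) ≤ L := by exact_mod_cast hL
  have hLe : (L : ℝ) * e ≤ m / 100 := by linarith
  have hem : e ≤ m / 4200 := by nlinarith
  have he3 : e ^ 3 ≤ (1 / 100000) ^ 3 := pow_le_pow_left₀ he0.le he 3
  by_cases hcase : 3 * L ≤ r
  · refine ⟨r, 2514 * e ^ 3, hcase, ?_, by positivity, ?_, ?_, ?_, ?_, ?_⟩
    · calc ‖ζ ^ r - 1‖ * e ≤ 2514 * e ^ 2 * e := by gcongr
        _ = 2514 * e ^ 3 := by ring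
    · nlinarith
    · have hL4 : (4 : ℝ) ≤ L := by linarith
      have hLe1 : (L : ℝ) * e * e ≤ 1 / 100 * (1 / 100000) :=
        mul_le_mul (by linarith) he he0.le (by norm_num)
      have hsum : ((L + r + 4 : ℕ) : ℝ) * e ^ 2 ≤ 1 / 200 := by push_cast; nlinarith
      calc 100 * ((L + r + 4 : ℕ) : ℝ) * (2514 * e ^ 3)
          = 251400 * e * (((L + r + 4 : ℕ) : ℝ) * e ^ 2) := by ring
        _ ≤ 251400 * e * (1 / 200) := by gcongr
        _ ≤ m / 2 := by linarith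
    · have hL4 : (4 : ℝ) ≤ L := by linarith
      have hLe1 : (L : ℝ) * e * e ≤ 1 / 100 * (1 / 100000) :=
        mul_le_mul (by linarith) he he0.le (by norm_num)
      have hsum : ((L + r + 4 : ℕ) : ℝ) * e ^ 2 ≤ 1 / 200 := by push_cast; nlinarith
      calc ((L + r + 4 : ℕ) : ℝ) ^ 4 * (2514 * e ^ 3) ^ 3
          = (((L + r + 4 : ℕ) : ℝ) * e ^ 2) ^ 4 * (2514 ^ 3 * e) := by ring
        _ ≤ (1 / 200) ^ 4 * (2514 ^ 3 * (1 / 100000)) := by gcongr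
        _ ≤ 1 := by norm_num
    · calc (2514 * e ^ 3) ^ 4 = 2514 ^ 4 * (e ^ 9 * e ^ 3) := by ring
        _ ≤ 2514 ^ 4 * (e ^ 9 * 1) := by
            gcongr; exact pow_le_one₀ he0.le (by linarith)
        _ ≤ 8400 ^ 4 * e ^ 9 := by rw [mul_one]; gcongr; norm_num
    · linarith
  · have hrL : r < 3 * L := not_le.1 hcase
    set t : ℕ := (3 * L + r - 1) / r with ht
    have hdm := Nat.div_add_mod (3 * L + r - 1) r
    have hml := Nat.mod_lt (3 * L + r - 1) hr0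
    rw [← ht] at hdm
    have hq1 : 3 * L ≤ r * t := by omega
    have hq2 : r * t ≤ 6 * L := by omega
    have ht3 : t ≤ 3 * L := by
      rw [ht]
      refine Nat.div_le_of_le_mul ?_
      have h' := Nat.mul_le_mul_left r (show 1 ≤ 3 * L by omega)
      have h'' := Nat.mul_le_mul_right (3 * L - 1) (show 1 ≤ r by omega)
      have : r * (3 * L) = r + r * (3 * L - 1) := by
        conv_lhs => rw [show 3 * L = 1 + (3 * L - 1) by omega]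
        ring
      omega
    have hz : ‖ζ ^ (r * t) - 1‖ ≤ 7542 * L * e ^ 2 := by
      rw [pow_mul]
      refine (norm_pow_sub_one_le_mul _ (by rw [norm_pow, hζ, one_pow]) t).trans ?_
      calc (t : ℝ) * ‖ζ ^ r - 1‖ ≤ ((3 * L : ℕ) : ℝ) * (2514 * e ^ 2) := by gcongr
        _ = 7542 * L * e ^ 2 := by push_cast; ring
    have hN : ((L + r * t + 4 : ℕ) : ℝ) ≤ 8 * L := by
      exact_mod_cast (show L + r * t + 4 ≤ 8 * L by omega)
    have hq6 : ((r * t : ℕ) : ℝ) ≤ 6 * L := by exact_mod_cast hq2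
    refine ⟨r * t, 7542 * L * e ^ 3, hq1, ?_, by positivity, ?_, ?_, ?_, ?_, ?_⟩
    · calc ‖ζ ^ (r * t) - 1‖ * e ≤ 7542 * L * e ^ 2 * e := by gcongr
        _ = 7542 * L * e ^ 3 := by ring
    · calc 7542 * (L : ℝ) * e ^ 3 = 7542 * (L * e) * e ^ 2 := by ring
        _ ≤ 7542 * (1 / 100) * (1 / 100000) ^ 2 := by gcongr; linarith
        _ ≤ 1 / 100000 := by norm_num
    · have hm0 : 0 ≤ m := le_trans (by positivity) hsmall
      calc 100 * ((L + r * t + 4 : ℕ) : ℝ) * (7542 * L * e ^ 3)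
          ≤ 100 * (8 * L) * (7542 * L * e ^ 3) := by gcongr
        _ = 6033600 * ((L : ℝ) * e) ^ 2 * e := by ring
        _ ≤ 6033600 * (m / 100) ^ 2 * (1 / 100000) := by gcongr
        _ ≤ m / 2 := by nlinarith
    · have hL8 : (L : ℝ) ^ 8 * e ^ 6 ≤ 1 := by
        calc (L : ℝ) ^ 8 * e ^ 6 = ((L : ℝ) ^ 4 * e ^ 3) ^ 2 := by ring
          _ ≤ 1 := pow_le_one₀ (by positivity) hlen
      have hL7 : (L : ℝ) ^ 7 * e ^ 6 ≤ 1 / 42 := by
        rw [le_div_iff₀ (by norm_num)]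
        calc (L : ℝ) ^ 7 * e ^ 6 * 42 ≤ (L : ℝ) ^ 7 * e ^ 6 * L := by gcongr
          _ = (L : ℝ) ^ 8 * e ^ 6 := by ring
          _ ≤ 1 := hL8
      calc ((L + r * t + 4 : ℕ) : ℝ) ^ 4 * (7542 * L * e ^ 3) ^ 3
          ≤ (8 * (L : ℝ)) ^ 4 * (7542 * L * e ^ 3) ^ 3 := by gcongr
        _ = 4096 * 7542 ^ 3 * ((L : ℝ) ^ 7 * e ^ 6) * e ^ 3 := by ring
        _ ≤ 4096 * 7542 ^ 3 * (1 / 42) * (1 / 100000) ^ 3 := by gcongr
        _ ≤ 1 := by norm_num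
    · calc (7542 * (L : ℝ) * e ^ 3) ^ 4 = 7542 ^ 4 * (((L : ℝ) ^ 4 * e ^ 3) * e ^ 9) := by ring
        _ ≤ 7542 ^ 4 * (1 * e ^ 9) := by gcongr
        _ ≤ 8400 ^ 4 * e ^ 9 := by rw [one_mul]; gcongr; norm_num
    · calc ((r * t : ℕ) : ℝ) * e ^ 2 ≤ 6 * L * e ^ 2 := by gcongr
        _ = 6 * ((L : ℝ) * e) * e := by ring
        _ ≤ 6 * (1 / 100) * (1 / 100000) := by gcongr; linarith
        _ ≤ 1 / 300 := by norm_num

end

end Vale.Agent.P105.Salem
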